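import Vale.Agent.P286.H353.DGFull
import Vale.Agent.P286.H847.GD

/-!
# Twisted differential modules on a diagram of affine charts of a curve with an invariant
vector field
-/

namespace Vale.Agent.P286ET

open CategoryTheory
open Vale.Agent.P286.H847 (GD)
open Vale.Agent.P286.H353

noncomputable section

universe u v u₁ v₁

/-- The ring map `φ` is the localisation away from `s`. -/
structure IsAway {A B : Type} [CommRing A] [CommRing B] [Algebra ℂ A] [Algebra ℂ B]
    (φ : A →ₐ[ℂ] B) (s : A) : Prop where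
  unit : IsUnit (φ s)
  surj : ∀ y : B, ∃ (n : ℕ) (x : A), φ s ^ n * y = φ x
  ker : ∀ x : A, φ x = 0 → ∃ n : ℕ, s ^ n * x = 0

/-- A diagram of charts with a vector field `dd`, an involution `w` and a cocycle `eta`. -/
structure TDat (I : Type) [SmallCategory I] : Type 1 where
  R : I → Type
  [cr : ∀ i, CommRing (R i)]
  [alg : ∀ i, Algebra ℂ (R i)]
  tau : ∀ {i j : I}, (i ⟶ j) → (R i →ₐ[ℂ] R j)
  tau_id : ∀ (i : I) (r : R i), tau (𝟙 i) r = r
  tau_comp : ∀ {i j k : I} (a : i ⟶ j) (b : j ⟶ k) (r : R i), tau (a ≫ b) r = tau b (tau a r)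
  dd : ∀ i, Derivation ℂ (R i) (R i)
  tau_dd : ∀ {i j : I} (a : i ⟶ j) (r : R i), tau a (dd i r) = dd j (tau a r)
  w : ∀ i, R i →ₐ[ℂ] R i
  w_w : ∀ (i : I) (r : R i), w i (w i r) = r
  tau_w : ∀ {i j : I} (a : i ⟶ j) (r : R i), tau a (w i r) = w j (tau a r)
  w_dd : ∀ (i : I) (r : R i), w i (dd i r) = - dd i (w i r)
  eta : ∀ {i j : I}, (i ⟶ j) → R j
  eta_id : ∀ i : I, eta (𝟙 i) = 0
  eta_comp : ∀ {i j k : I} (a : i ⟶ j) (b : j ⟶ k), eta (a ≫ b) = tau b (eta a) + eta b
  w_eta : ∀ {i j : I} (a : i ⟶ j), w j (eta a) = - eta a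
  s : ∀ {i j : I}, (i ⟶ j) → R i
  away : ∀ {i j : I} (a : i ⟶ j), IsAway (tau a) (s a)

attribute [instance] TDat.cr TDat.alg

/-- A graded differential module over the algebra `R`. -/
structure RG (R : Type) [CommRing R] [Algebra ℂ R] : Type 1 extends GD where
  [md : Module R V]
  [tw : IsScalarTower ℂ R V]
  d_smul : ∀ (r : R) (x : V), d (r • x) = r • d x
  gr_smul : ∀ (m : ℤ) (r : R) (x : V), x ∈ gr m → r • x ∈ gr m

attribute [instance] RG.md RG.tw

/-- A family of complexes on the charts with a twisted connection `D`, an odd operator `e` of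
degree `-1`, an involution `w` and transition maps `rho`. -/
structure TObj {I : Type} [SmallCategory I] (T : TDat I) : Type 1 where
  M : ∀ i : I, RG (T.R i)
  D : ∀ i, (M i).V →ₗ[ℂ] (M i).V
  D_smul : ∀ i (r : T.R i) (x : (M i).V), D i (r • x) = r • D i x + T.dd i r • x
  D_d : ∀ i (x : (M i).V), (M i).d (D i x) = D i ((M i).d x)
  D_gr : ∀ i (m : ℤ) (x : (M i).V), x ∈ (M i).gr m → D i x ∈ (M i).gr m
  e : ∀ i, (M i).V →ₗ[ℂ] (M i).V
  e_smul : ∀ i (r : T.R i) (x : (M i).V), e i (r • x) = r • e i x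
  e_d : ∀ i (x : (M i).V), (M i).d (e i x) = - e i ((M i).d x)
  e_gr : ∀ i (m : ℤ) (x : (M i).V), x ∈ (M i).gr m → e i x ∈ (M i).gr (m - 1)
  e_e : ∀ i (x : (M i).V), e i (e i x) = 0
  D_e : ∀ i (x : (M i).V), D i (e i x) = e i (D i x)
  w : ∀ i, (M i).V →ₗ[ℂ] (M i).V
  w_smul : ∀ i (r : T.R i) (x : (M i).V), w i (r • x) = T.w i r • w i x
  w_d : ∀ i (x : (M i).V), (M i).d (w i x) = w i ((M i).d x)
  w_gr : ∀ i (m : ℤ) (x : (M i).V), x ∈ (M i).gr m → w i x ∈ (M i).gr m
  w_w : ∀ i (x : (M i).V), w i (w i x) = x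
  w_D : ∀ i (x : (M i).V), w i (D i x) = - D i (w i x)
  w_e : ∀ i (x : (M i).V), w i (e i x) = - e i (w i x)
  rho : ∀ {i j : I}, (i ⟶ j) → ((M i).V →ₗ[ℂ] (M j).V)
  rho_id : ∀ i (x : (M i).V), rho (𝟙 i) x = x
  rho_comp : ∀ {i j k : I} (a : i ⟶ j) (b : j ⟶ k) (x : (M i).V),
    rho (a ≫ b) x = rho b (rho a x)
  rho_smul : ∀ {i j : I} (a : i ⟶ j) (r : T.R i) (x : (M i).V),
    rho a (r • x) = T.tau a r • rho a x
  rho_d : ∀ {i j : I} (a : i ⟶ j) (x : (M i).V), rho a ((M i).d x) = (M j).d (rho a x)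
  rho_gr : ∀ {i j : I} (a : i ⟶ j) (m : ℤ) (x : (M i).V),
    x ∈ (M i).gr m → rho a x ∈ (M j).gr m
  rho_D : ∀ {i j : I} (a : i ⟶ j) (x : (M i).V),
    rho a (D i x) = D j (rho a x) + T.eta a • rho a x
  rho_e : ∀ {i j : I} (a : i ⟶ j) (x : (M i).V), rho a (e i x) = e j (rho a x)
  rho_w : ∀ {i j : I} (a : i ⟶ j) (x : (M i).V), rho a (w i x) = w j (rho a x)

theorem nop_sq (p : ℤ) : (p.negOnePow : ℤ) * (p.negOnePow : ℤ) = 1 := by
  rw [← Units.val_mul, Int.units_mul_self, Units.val_one]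

theorem nop_succ (p : ℤ) : ((p + 1).negOnePow : ℤ) = - (p.negOnePow : ℤ) := by
  rw [Int.negOnePow_succ, Units.val_neg]

theorem nop_add (p q : ℤ) :
    ((p + q).negOnePow : ℤ) = (p.negOnePow : ℤ) * (q.negOnePow : ℤ) := by
  rw [Int.negOnePow_add, Units.val_mul]

variable {I J : Type} [SmallCategory I] [SmallCategory J] {T : TDat I}

/-- The family `u` is a cochain of degree `p`. -/
structure IsCo (M N : TObj T) (p : ℤ) (u : ∀ i, (M.M i).V →ₗ[ℂ] (N.M i).V) : Prop where
  deg : ∀ i (m : ℤ) (x : (M.M i).V), x ∈ (M.M i).gr m → u i x ∈ (N.M i).gr (m + p)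
  lin : ∀ i (r : T.R i) (x : (M.M i).V), u i (r • x) = r • u i x
  D : ∀ i (x : (M.M i).V), u i (M.D i x) = N.D i (u i x)
  e : ∀ i (x : (M.M i).V), u i (M.e i x) = (p.negOnePow : ℤ) • N.e i (u i x)
  w : ∀ i (x : (M.M i).V), u i (M.w i x) = N.w i (u i x)
  rho : ∀ {i j : I} (a : i ⟶ j) (x : (M.M i).V), u j (M.rho a x) = N.rho a (u i x)

/-- The cochains of degree `p`. -/
def coS (M N : TObj T) (p : ℤ) : Submodule ℂ (∀ i, (M.M i).V →ₗ[ℂ] (N.M i).V) where
  carrier := {u | IsCo M N p u}
  add_mem' := by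
    intro u v hu hv
    refine ⟨fun i m x hx => add_mem (hu.deg i m x hx) (hv.deg i m x hx), ?_, ?_, ?_, ?_, ?_⟩
    · intro i r x
      simp only [Pi.add_apply, LinearMap.add_apply, hu.lin, hv.lin, smul_add]
    · intro i x
      simp only [Pi.add_apply, LinearMap.add_apply, hu.D, hv.D, map_add]
    · intro i x
      simp only [Pi.add_apply, LinearMap.add_apply, hu.e, hv.e, map_add, smul_add]
    · intro i x
      simp only [Pi.add_apply, LinearMap.add_apply, hu.w, hv.w, map_add]
    · intro i j a x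
      simp only [Pi.add_apply, LinearMap.add_apply, hu.rho, hv.rho, map_add]
  zero_mem' := by
    refine ⟨fun i m x hx => zero_mem _, ?_, ?_, ?_, ?_, ?_⟩ <;> intros <;> simp
  smul_mem' := by
    intro c u hu
    refine ⟨fun i m x hx => Submodule.smul_mem _ c (hu.deg i m x hx), ?_, ?_, ?_, ?_, ?_⟩
    · intro i r x
      simp only [Pi.smul_apply, LinearMap.smul_apply, hu.lin]
      exact smul_comm c r _
    · intro i x
      simp only [Pi.smul_apply, LinearMap.smul_apply, hu.D, map_smul]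
    · intro i x
      simp only [Pi.smul_apply, LinearMap.smul_apply, hu.e, map_smul]
      exact smul_comm c _ _
    · intro i x
      simp only [Pi.smul_apply, LinearMap.smul_apply, hu.w, map_smul]
    · intro i j a x
      simp only [Pi.smul_apply, LinearMap.smul_apply, hu.rho, map_smul]

/-- The cochains of degree `p`. -/
abbrev Co (M N : TObj T) (p : ℤ) : Type := coS M N p

namespace Co

variable {M N P : TObj T} {p q r : ℤ}

/-- The underlying maps. -/
def f (u : Co M N p) (i : I) : (M.M i).V →ₗ[ℂ] (N.M i).V := u.1 i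

theorem isCo (u : Co M N p) : IsCo M N p u.f := u.2

/-- The cochain defined by a family of maps. -/
def mk (u : ∀ i, (M.M i).V →ₗ[ℂ] (N.M i).V) (h : IsCo M N p u) : Co M N p := ⟨u, h⟩

theorem mk_f (u : ∀ i, (M.M i).V →ₗ[ℂ] (N.M i).V) (h : IsCo M N p u) : (mk u h).f = u := rfl

@[simp] theorem zero_f (i : I) : (0 : Co M N p).f i = 0 := rfl
@[simp] theorem add_f (z w : Co M N p) (i : I) : (z + w).f i = z.f i + w.f i := rfl
@[simp] theorem sub_f (z w : Co M N p) (i : I) : (z - w).f i = z.f i - w.f i := rfl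
@[simp] theorem neg_f (z : Co M N p) (i : I) : (-z).f i = - z.f i := rfl
@[simp] theorem smul_f (c : ℂ) (z : Co M N p) (i : I) : (c • z).f i = c • z.f i := rfl

theorem deg' (u : Co M N p) (i : I) {m k : ℤ} (h : k = m + p) {x : (M.M i).V}
    (hx : x ∈ (M.M i).gr m) : u.f i x ∈ (N.M i).gr k := h ▸ u.isCo.deg i m x hx

theorem ext' {u w : Co M N p} (h : ∀ i x, u.f i x = w.f i x) : u = w :=
  Subtype.ext (funext fun i => LinearMap.ext (h i))

/-- The identity. -/
def one (M : TObj T) : Co M M 0 :=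
  mk (fun _ => LinearMap.id)
    ⟨fun i m x hx => by simpa using hx, fun _ _ _ => rfl, fun _ _ => rfl, fun i x => by simp,
      fun _ _ => rfl, fun _ _ => rfl⟩

/-- The composition (first `u`, then `w`). -/
def cmp (h : p + q = r) (u : Co M N p) (w : Co N P q) : Co M P r :=
  mk (fun i => (w.f i).comp (u.f i))
    ⟨fun i m x hx => deg' w i (by omega) (u.isCo.deg i m x hx),
      fun i c x => by rw [LinearMap.comp_apply, LinearMap.comp_apply, u.isCo.lin, w.isCo.lin],
      fun i x => by rw [LinearMap.comp_apply, LinearMap.comp_apply, u.isCo.D, w.isCo.D],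
      fun i x => by
        rw [LinearMap.comp_apply, LinearMap.comp_apply, u.isCo.e, map_zsmul, w.isCo.e, smul_smul,
          ← h, nop_add],
      fun i x => by rw [LinearMap.comp_apply, LinearMap.comp_apply, u.isCo.w, w.isCo.w],
      fun a x => by rw [LinearMap.comp_apply, LinearMap.comp_apply, u.isCo.rho, w.isCo.rho]⟩

/-- The differential. -/
def dl (h : p + 1 = q) (u : Co M N p) : Co M N q :=
  mk (fun i => (N.M i).d.comp (u.f i) - (p.negOnePow : ℤ) • (u.f i).comp (M.M i).d)
    ⟨fun i m x hx => by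
      have h1 := (N.M i).dgr' (n := m + q) (by omega) (u.isCo.deg i m x hx)
      have h2 := deg' u i (k := m + q) (by omega) ((M.M i).dgr m x hx)
      exact sub_mem h1 (zsmul_mem h2 _),
    fun i c x => by
      simp only [LinearMap.sub_apply, LinearMap.comp_apply, LinearMap.smul_apply, u.isCo.lin,
        RG.d_smul, smul_sub]
      rw [smul_comm c],
    fun i x => by
      simp only [LinearMap.sub_apply, LinearMap.comp_apply, LinearMap.smul_apply, map_sub,
        map_zsmul, u.isCo.D, M.D_d, N.D_d],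
    fun i x => by
      simp only [LinearMap.sub_apply, LinearMap.comp_apply, LinearMap.smul_apply, map_sub,
        map_zsmul, M.e_d, map_neg, u.isCo.e, N.e_d, ← h, nop_succ]
      simp only [smul_sub, smul_neg, neg_smul],
    fun i x => by
      simp only [LinearMap.sub_apply, LinearMap.comp_apply, LinearMap.smul_apply, map_sub,
        map_zsmul, u.isCo.w, M.w_d, N.w_d],
    fun a x => by
      simp only [LinearMap.sub_apply, LinearMap.comp_apply, LinearMap.smul_apply, map_sub,
        map_zsmul, u.isCo.rho, ← M.rho_d, N.rho_d]⟩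

theorem one_f (i : I) (x : (M.M i).V) : (one M).f i x = x := rfl

theorem cmp_f (h : p + q = r) (u : Co M N p) (w : Co N P q) (i : I) (x : (M.M i).V) :
    (cmp h u w).f i x = w.f i (u.f i x) := rfl

theorem dl_f (h : p + 1 = q) (u : Co M N p) (i : I) (x : (M.M i).V) :
    (dl h u).f i x = (N.M i).d (u.f i x) - (p.negOnePow : ℤ) • u.f i ((M.M i).d x) := rfl

/-- The differential, in all cases. -/
def dif (p q : ℤ) (u : Co M N p) : Co M N q := if h : p + 1 = q then dl h u else 0

theorem dif_eq (h : p + 1 = q) (u : Co M N p) : dif p q u = dl h u := dif_pos h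

theorem dif_ne (h : ¬ p + 1 = q) (u : Co M N p) : dif p q u = 0 := dif_neg h

theorem dif_f (h : p + 1 = q) (u : Co M N p) (i : I) (x : (M.M i).V) :
    (dif p q u).f i x = (N.M i).d (u.f i x) - (p.negOnePow : ℤ) • u.f i ((M.M i).d x) := by
  rw [dif_eq h]
  rfl

theorem eq_dif (u : Co M N p) (w : Co M N q)
    (h1 : p + 1 = q → ∀ i (x : (M.M i).V),
      w.f i x = (N.M i).d (u.f i x) - (p.negOnePow : ℤ) • u.f i ((M.M i).d x))
    (h0 : ¬ p + 1 = q → w = 0) : w = dif p q u := by
  by_cases h : p + 1 = q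
  · rw [dif_eq h]
    exact ext' (h1 h)
  · rw [dif_ne h]
    exact h0 h

theorem dif_zero_iff (u : Co M N 0) :
    dif 0 1 u = 0 ↔ ∀ i x, u.f i ((M.M i).d x) = (N.M i).d (u.f i x) := by
  constructor
  · intro h i x
    have h1 := congrArg (fun w : Co M N 1 => w.f i x) h
    simp only [dif_f (zero_add 1), Int.negOnePow_zero, Units.val_one, one_smul, zero_f,
      LinearMap.zero_apply] at h1
    exact (sub_eq_zero.1 h1).symm
  · intro h
    apply ext'
    intro i x
    rw [dif_f (zero_add 1), h]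
    simp

end Co

/-- The DG category of all families. -/
def TA (T : TDat I) : DGC.{1, 0} where
  Obj := TObj T
  Hom M N p := Co M N p
  one := Co.one
  comp h u w := Co.cmp h u w
  d p q u := Co.dif p q u
  one_comp _ := rfl
  comp_one _ := rfl
  assoc _ _ _ := rfl
  d_one N := (Co.dif_zero_iff _).2 fun _ _ => rfl
  d_comp f g hf hg := (Co.dif_zero_iff _).2 fun i x => by
    rw [Co.dif_zero_iff] at hf hg
    rw [Co.cmp_f, Co.cmp_f, hf, hg]

/-- The map `ρ`, semilinear for a ring map sending `s` to `t`, is the localisation away from `s` on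
cohomology. -/
def LocQ {A B : Type} [CommRing A] [CommRing B] [Algebra ℂ A] [Algebra ℂ B] (M : RG A) (N : RG B)
    (ρ : M.V →ₗ[ℂ] N.V) (s : A) (t : B) : Prop :=
  ∀ m : ℤ,
    (∀ x ∈ M.gr m, M.d x = 0 → (∃ y ∈ N.gr (m - 1), N.d y = ρ x) →
      ∃ n : ℕ, ∃ x' ∈ M.gr (m - 1), M.d x' = s ^ n • x) ∧
    (∀ y ∈ N.gr m, N.d y = 0 →
      ∃ n : ℕ, ∃ x ∈ M.gr m, M.d x = 0 ∧ ∃ y' ∈ N.gr (m - 1), N.d y' = t ^ n • y - ρ x)

/-- The family is cartesian. -/
def Cart (M : TObj T) : Prop :=
  ∀ {i j : I} (a : i ⟶ j), LocQ (M.M i) (M.M j) (M.rho a) (T.s a) (T.tau a (T.s a))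

/-- The DG category of cartesian families. -/
def TM (T : TDat I) : DGC.{1, 0} := (TA T).full Cart

/-- The morphism of graded differential spaces defined by a closed cochain of degree `0`. -/
def Co.gd {M N : TObj T} (u : Co M N 0) (h : Co.dif 0 1 u = 0) (i : I) :
    GD.Hom (M.M i).toGD (N.M i).toGD where
  f := u.f i
  comm := (Co.dif_zero_iff u).1 h i
  deg m _ hx := u.deg' i (add_zero m).symm hx

/-- The quasi-isomorphisms of families. -/
def WA (T : TDat I) : MorphismProperty (Z0 (TA T)) := fun _ _ a =>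
  ∀ i, GD.Qis (Co.gd (zf a) (zf_cl a) i)

/-- The quasi-isomorphisms of cartesian families. -/
def WM (T : TDat I) : MorphismProperty (Z0 (TM T)) := fun _ _ a =>
  ∀ i, GD.Qis (Co.gd (zf a) (zf_cl a) i)

/-- The two DG categories with weak equivalences are related by a pair of DG functors which are
inverse to each other up to zigzags of weak equivalences. -/
def DInv (C : DGC.{u, v}) (W : MorphismProperty (Z0 C)) (D : DGC.{u₁, v₁})
    (W' : MorphismProperty (Z0 D)) : Prop :=
  ∃ (Φ : DGF C D) (Ψ : DGF D C), Inv W W' Φ.z0 Ψ.z0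

/-- The categories of cartesian families are equivalent. -/
def TEq (T : TDat I) (T' : TDat J) : Prop := DInv (TM T) (WM T) (TM T') (WM T')

/-! ### Two charts and their intersection -/

/-- Two charts and their intersection. -/
inductive Ix : Type
  | a : Ix
  | b : Ix
  | n : Ix
  deriving DecidableEq

namespace Ix

instance : PartialOrder Ix where
  le i j := i = j ∨ j = n
  le_refl i := Or.inl rfl
  le_trans i j k h h' := by
    rcases h' with rfl | h'
    · exact h
    · exact Or.inr h'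
  le_antisymm i j h h' := by
    rcases h with h | h
    · exact h
    · rcases h' with h' | h'
      · exact h'.symm
      · rw [h, h']

theorem le_def (i j : Ix) : i ≤ j ↔ i = j ∨ j = n := Iff.rfl

theorem le_n (i : Ix) : i ≤ n := Or.inr rfl

/-- The intersection of two charts. -/
def sup : Ix → Ix → Ix
  | a, a => a
  | b, b => b
  | _, _ => n

theorem le_sup_l (i j : Ix) : i ≤ sup i j := by
  cases i <;> cases j <;> first | exact le_rfl | exact le_n _

theorem le_sup_r (i j : Ix) : j ≤ sup i j := by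
  cases i <;> cases j <;> first | exact le_rfl | exact le_n _

theorem sup_comm' (i j : Ix) : sup i j = sup j i := by
  cases i <;> cases j <;> rfl

theorem sup_le' {i j k : Ix} (h : i ≤ k) (h' : j ≤ k) : sup i j ≤ k := by
  rcases h with rfl | rfl
  · rcases h' with rfl | rfl
    · cases j <;> exact le_rfl
    · exact le_n _
  · exact le_n _

theorem sup_mono {i j i' j' : Ix} (h : i ≤ i') (h' : j ≤ j') : sup i j ≤ sup i' j' :=
  sup_le' (h.trans (le_sup_l _ _)) (h'.trans (le_sup_r _ _))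

/-- The arrow to the intersection of all charts. -/
def tn (i : Ix) : i ⟶ n := homOfLE (le_n i)

/-- The arrow to the intersection. -/
def sl (i j : Ix) : i ⟶ sup i j := homOfLE (le_sup_l i j)

/-- The arrow to the intersection. -/
def sr (i j : Ix) : j ⟶ sup i j := homOfLE (le_sup_r i j)

/-- The arrow between intersections. -/
def sm {i j i' j' : Ix} (u : i ⟶ i') (v : j ⟶ j') : sup i j ⟶ sup i' j' :=
  homOfLE (sup_mono (leOfHom u) (leOfHom v))

theorem hom_eq {i j : Ix} (u v : i ⟶ j) : u = v := Subsingleton.elim u v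

end Ix

end

end Vale.Agent.P286ET
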