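import Vale.Agent.P286ET.Fma
import Vale.Agent.P286ET2.Main
import Vale.Agent.P286ET3.Main
import Vale.Agent.P286ET4.Main
import Vale.Agent.P286ET5.Main
import Vale.Agent.P286ET7.Main

/-!
# The Fourier-Mukai equivalence for twisted differential modules on an elliptic curve
-/

namespace Vale.Agent.P286ET

theorem fmt : FMT :=
  fin fma Vale.Agent.P286ET5.muk
    (Vale.Agent.P286ET4.ell Vale.Agent.P286ET2.trc Vale.Agent.P286ET3.kap)

end Vale.Agent.P286ET
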