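import Vale.Agent.P286ET.Ten

/-!
# Base change along a localisation; exact sequences of iterated tensor products
-/

namespace Vale.Agent.P286ET

open TensorProduct
open Vale.Agent.P286.H847 (GD)
open Vale.Agent.P286.H847.GD

noncomputable section

variable {A B : Type} [CommRing A] [CommRing B] [Algebra ℂ A] [Algebra ℂ B]

/-- The target of a ring map, as an algebra over the source. -/
def Via (_ : A →ₐ[ℂ] B) : Type := B

/-- The ring. -/
local instance instCommRingVia (φ : A →ₐ[ℂ] B) : CommRing (Via φ) := inferInstanceAs (CommRing B)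

/-- The algebra. -/
local instance instAlgebraComplexVia (φ : A →ₐ[ℂ] B) : Algebra ℂ (Via φ) := inferInstanceAs (Algebra ℂ B)

/-- The identity map. -/
def toV (φ : A →ₐ[ℂ] B) : B →ₐ[ℂ] Via φ := AlgHom.id ℂ B

/-- The identity map. -/
def ofV (φ : A →ₐ[ℂ] B) : Via φ →ₐ[ℂ] B := AlgHom.id ℂ B

/-- The algebra over the source. -/
local instance instAlgebraVia (φ : A →ₐ[ℂ] B) : Algebra A (Via φ) := ((toV φ).comp φ).toRingHom.toAlgebra

theorem via_smul (φ : A →ₐ[ℂ] B) (r : A) (y : Via φ) : r • y = toV φ (φ r) * y := rfl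

theorem ofV_toV (φ : A →ₐ[ℂ] B) (y : B) : ofV φ (toV φ y) = y := rfl

theorem toV_ofV (φ : A →ₐ[ℂ] B) (y : Via φ) : toV φ (ofV φ y) = y := rfl

theorem via_map (φ : A →ₐ[ℂ] B) (r : A) : algebraMap A (Via φ) r = toV φ (φ r) := rfl

local instance instIsScalarTowerComplexVia (φ : A →ₐ[ℂ] B) : IsScalarTower ℂ A (Via φ) :=
  ⟨fun z r y => by rw [via_smul, via_smul, map_smul, map_smul, smul_mul_assoc]⟩

theorem via_loc {φ : A →ₐ[ℂ] B} {s : A} (h : IsAway φ s) : IsLocalization.Away s (Via φ) :=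
  IsLocalization.Away.mk s h.unit
    (fun y => by
      obtain ⟨m, x, e⟩ := h.surj y
      exact ⟨m, x, by rw [mul_comm]; exact e⟩)
    (fun x x' e => by
      have e' : φ x = φ x' := e
      obtain ⟨m, hm⟩ := h.ker (x - x') (by rw [map_sub, e', sub_self])
      exact ⟨m, by rw [← sub_eq_zero, ← mul_sub]; exact hm⟩)

theorem via_flat {φ : A →ₐ[ℂ] B} {s : A} (h : IsAway φ s) : Module.Flat A (Via φ) := by
  have := via_loc h
  exact IsLocalization.flat (Via φ) (Submonoid.powers s)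

section BC

variable (φ : A →ₐ[ℂ] B) {M : RG A} {N : RG B} (ρ : Hom M.toGD N.toGD)
  (hρ : ∀ (r : A) x, ρ.f (r • x) = φ r • ρ.f x)

/-- The adjoint map. -/
def bcL : Via φ ⊗[A] M.V →ₗ[ℂ] N.V :=
  tlift (LinearMap.mk₂ ℂ (fun (y : Via φ) (x : M.V) => ofV φ y • ρ.f x)
    (fun y y' x => by rw [map_add, add_smul])
    (fun z y x => by rw [map_smul, smul_assoc])
    (fun y x x' => by rw [map_add, smul_add])
    (fun z y x => by rw [map_smul, smul_comm]))
    (fun r y x => by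
      rw [LinearMap.mk₂_apply, LinearMap.mk₂_apply, hρ, via_smul, map_mul, ofV_toV, smul_smul,
        mul_comm])

theorem bcL_tmul (y : Via φ) (x : M.V) : bcL φ ρ hρ (y ⊗ₜ x) = ofV φ y • ρ.f x :=
  tlift_tmul _ _ y x

theorem bcL_smul (y : Via φ) (z : Via φ ⊗[A] M.V) :
    bcL φ ρ hρ (y • z) = ofV φ y • bcL φ ρ hρ z := by
  induction z using TensorProduct.induction_on with
  | zero => simp only [smul_zero, map_zero]
  | tmul k x => rw [smul_tmul', bcL_tmul, bcL_tmul, smul_eq_mul, map_mul, mul_smul]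
  | add z z' h h' => simp only [smul_add, map_add, h, h']

/-- The adjoint morphism. -/
def bcH : Hom (tenG (Via φ) M) N.toGD where
  f := bcL φ ρ hρ
  comm z := by
    induction z using TensorProduct.induction_on with
    | zero => simp only [map_zero]
    | tmul k x => rw [lt_tmul, bcL_tmul, bcL_tmul, ρ.comm, N.d_smul]
    | add z z' h h' => simp only [map_add, h, h']
  deg m z hz := tgr_map _ _ (fun k x hx => by
    rw [bcL_tmul]
    exact N.gr_smul m _ _ (ρ.deg m x hx)) hz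

theorem via_d (y : Via φ) (z : Via φ ⊗[A] M.V) :
    (tenG (Via φ) M).d (y • z) = y • (tenG (Via φ) M).d z := by
  induction z using TensorProduct.induction_on with
  | zero => simp only [smul_zero, map_zero]
  | tmul k x => rw [smul_tmul', lt_tmul, lt_tmul, smul_tmul']
  | add z z' h h' => simp only [smul_add, map_add, h, h']

theorem via_gr (y : Via φ) {m : ℤ} {z : Via φ ⊗[A] M.V} (hz : z ∈ tgr (Via φ) M m) :
    y • z ∈ tgr (Via φ) M m :=
  tgr_ind (P := fun z => y • z ∈ tgr (Via φ) M m) hz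
    (by rw [smul_zero]; exact zero_mem _)
    (fun k x hx => by rw [smul_tmul']; exact tgr_tmul _ hx)
    (fun z z' h h' => by rw [smul_add]; exact add_mem h h')

theorem via_one (r : A) (x : M.V) :
    (1 : Via φ) ⊗ₜ[A] (r • x) = toV φ (φ r) • ((1 : Via φ) ⊗ₜ[A] x) := by
  rw [← smul_tmul, smul_tmul']
  rfl

theorem via_den {s : A} (h : IsAway φ s) {m : ℤ} {z : Via φ ⊗[A] M.V}
    (hz : z ∈ tgr (Via φ) M m) :
    ∃ l : ℕ, ∃ x ∈ M.gr m, toV φ (φ s) ^ l • z = (1 : Via φ) ⊗ₜ[A] x := by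
  refine tgr_ind (P := fun z => ∃ l : ℕ, ∃ x ∈ M.gr m,
    toV φ (φ s) ^ l • z = (1 : Via φ) ⊗ₜ[A] x) hz ⟨0, 0, zero_mem _, by simp⟩ ?_ ?_
  · intro y x hx
    obtain ⟨l, r, e⟩ := h.surj (ofV φ y)
    refine ⟨l, r • x, M.gr_smul m r x hx, ?_⟩
    rw [via_one, ← e, map_mul, map_pow, toV_ofV, smul_tmul', smul_tmul', smul_eq_mul,
      smul_eq_mul, mul_one]
  · rintro z z' ⟨l, x, hx, e⟩ ⟨l', x', hx', e'⟩
    refine ⟨l + l', s ^ l' • x + s ^ l • x',
      add_mem (M.gr_smul m _ _ hx) (M.gr_smul m _ _ hx'), ?_⟩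
    rw [tmul_add, via_one, via_one, ← e, ← e', map_pow, map_pow, map_pow, map_pow, smul_smul,
      smul_smul, ← pow_add, ← pow_add, add_comm l' l, smul_add]

theorem bcH_qis {s : A} (h : IsAway φ s) (hq : LocQ M N ρ.f s (φ s)) : Qis (bcH φ ρ hρ) := by
  have := via_loc h
  obtain ⟨v, hv⟩ := h.unit.exists_left_inv
  have hv' : ∀ l : ℕ, toV φ v ^ l * toV φ (φ s) ^ l = 1 := fun l => by
    rw [← mul_pow, ← map_mul, hv, map_one, one_pow]
  have hv'' : ∀ l : ℕ, v ^ l * φ s ^ l = 1 := fun l => by rw [← mul_pow, hv, one_pow]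
  intro m
  refine ⟨?_, ?_⟩
  · rintro z hz hd ⟨y, hy, e⟩
    obtain ⟨l, x, hx, e1⟩ := via_den φ h hz
    have h0 : TensorProduct.mk A (Via φ) M.V 1 (M.d x) = 0 := by
      have := congrArg (tenG (Via φ) M).d e1
      rw [via_d, hd, smul_zero, lt_tmul] at this
      exact this.symm
    obtain ⟨⟨_, k, rfl⟩, hk⟩ := (IsLocalizedModule.eq_zero_iff (Submonoid.powers s)
      (TensorProduct.mk A (Via φ) M.V 1)).1 h0
    have hk' : s ^ k • M.d x = 0 := hk
    have e2 : ρ.f x = φ s ^ l • N.d y := by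
      have := congrArg (bcL φ ρ hρ) e1
      rw [bcL_smul, bcL_tmul, map_one, one_smul, map_pow, ofV_toV] at this
      rw [← this, e]
      rfl
    obtain ⟨j, x', hx', e3⟩ := (hq m).1 (s ^ k • x) (M.gr_smul m _ _ hx)
      (by rw [M.d_smul, hk']) ⟨φ (s ^ k) • φ s ^ l • y,
        N.gr_smul _ _ _ (N.gr_smul _ _ _ hy), by rw [N.d_smul, N.d_smul, hρ, e2]⟩
    refine ⟨toV φ v ^ (j + k + l) • ((1 : Via φ) ⊗ₜ[A] x'), via_gr φ _ (tgr_tmul _ hx'), ?_⟩
    rw [via_d, lt_tmul, e3, via_one, via_one, ← e1, map_pow, map_pow, map_pow, map_pow, smul_smul,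
      smul_smul, smul_smul, mul_assoc, mul_assoc, ← pow_add, ← pow_add, ← add_assoc, hv',
      one_smul]
  · intro y hy hd
    obtain ⟨l, x, hx, hdx, y', hy', e⟩ := (hq m).2 y hy hd
    refine ⟨(toV φ v ^ l) ⊗ₜ x, tgr_tmul _ hx, by rw [lt_tmul, hdx, tmul_zero], v ^ l • y',
      N.gr_smul _ _ _ hy', ?_⟩
    change _ = y - bcL φ ρ hρ _
    rw [N.d_smul, e, bcL_tmul, map_pow, ofV_toV, smul_sub, smul_smul, hv'', one_smul]

end BC

section Assoc

variable (K : BM A B) (L : Type) [AddCommGroup L] [Module ℂ L] [Module B L] [IsScalarTower ℂ B L]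
  (N : Type) [AddCommGroup N] [Module ℂ N] [Module A N] [IsScalarTower ℂ A N]

/-- Auxiliary map. -/
def as0 : K.V →ₗ[ℂ] N →ₗ[ℂ] L →ₗ[ℂ] (K.V ⊗[B] L) ⊗[A] N :=
  LinearMap.mk₂ ℂ (fun κ x =>
    { toFun := fun l => (κ ⊗ₜ[B] l) ⊗ₜ[A] x
      map_add' := fun l l' => by rw [tmul_add, add_tmul]
      map_smul' := fun z l => by rw [tmul_smul, ← smul_tmul' z (κ ⊗ₜ[B] l), RingHom.id_apply] })
    (fun κ κ' x => LinearMap.ext fun l => by
      change ((κ + κ') ⊗ₜ[B] l) ⊗ₜ[A] x = (κ ⊗ₜ[B] l) ⊗ₜ[A] x + (κ' ⊗ₜ[B] l) ⊗ₜ[A] x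
      rw [add_tmul, add_tmul])
    (fun z κ x => LinearMap.ext fun l => by
      change ((z • κ) ⊗ₜ[B] l) ⊗ₜ[A] x = z • (κ ⊗ₜ[B] l) ⊗ₜ[A] x
      rw [← smul_tmul', ← smul_tmul'])
    (fun κ x x' => LinearMap.ext fun l => tmul_add _ x x')
    (fun z κ x => LinearMap.ext fun l => tmul_smul z _ x)

theorem as0_apply (κ : K.V) (x : N) (l : L) :
    as0 K L N κ x l = (κ ⊗ₜ[B] l) ⊗ₜ[A] x := rfl

theorem as0_bal (r : A) (κ : K.V) (x : N) : as0 K L N (r • κ) x = as0 K L N κ (r • x) :=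
  LinearMap.ext fun l => by rw [as0_apply, as0_apply, ← smul_tmul', smul_tmul]

/-- Auxiliary map. -/
def as1 : K.V ⊗[A] N →ₗ[ℂ] L →ₗ[ℂ] (K.V ⊗[B] L) ⊗[A] N :=
  tlift (A := A) (K := K.V) (M := N) (P := L →ₗ[ℂ] (K.V ⊗[B] L) ⊗[A] N) (as0 K L N)
    (as0_bal K L N)

theorem as1_tmul (κ : K.V) (x : N) (l : L) :
    as1 K L N (κ ⊗ₜ[A] x) l = (κ ⊗ₜ[B] l) ⊗ₜ[A] x := by
  rw [as1, tlift_tmul, as0_apply]

/-- The associativity map. -/
def asA : L ⊗[B] (K.V ⊗[A] N) →ₗ[ℂ] (K.V ⊗[B] L) ⊗[A] N :=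
  tlift (as1 K L N).flip (fun y l z => by
    rw [LinearMap.flip_apply, LinearMap.flip_apply]
    induction z using TensorProduct.induction_on with
    | zero => simp only [smul_zero, map_zero, LinearMap.zero_apply]
    | tmul κ x => rw [smul_tmul', as1_tmul, as1_tmul, smul_tmul]
    | add z z' h h' => simp only [smul_add, map_add, LinearMap.add_apply, h, h'])

theorem asA_tmul (l : L) (κ : K.V) (x : N) :
    asA K L N (l ⊗ₜ (κ ⊗ₜ x)) = (κ ⊗ₜ[B] l) ⊗ₜ[A] x :=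
  (tlift_tmul _ _ l _).trans (as1_tmul K L N κ x l)

/-- Auxiliary map. -/
def bs0 : K.V →ₗ[ℂ] L →ₗ[ℂ] N →ₗ[ℂ] L ⊗[B] (K.V ⊗[A] N) :=
  LinearMap.mk₂ ℂ (fun κ l =>
    { toFun := fun x => l ⊗ₜ[B] (κ ⊗ₜ[A] x)
      map_add' := fun x x' => by rw [tmul_add, tmul_add]
      map_smul' := fun z x => by rw [tmul_smul, tmul_smul, RingHom.id_apply] })
    (fun κ κ' l => LinearMap.ext fun x => by
      change l ⊗ₜ[B] ((κ + κ') ⊗ₜ[A] x) = l ⊗ₜ[B] (κ ⊗ₜ[A] x) + l ⊗ₜ[B] (κ' ⊗ₜ[A] x)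
      rw [add_tmul, tmul_add])
    (fun z κ l => LinearMap.ext fun x => by
      change l ⊗ₜ[B] ((z • κ) ⊗ₜ[A] x) = z • l ⊗ₜ[B] (κ ⊗ₜ[A] x)
      rw [← smul_tmul', tmul_smul])
    (fun κ l l' => LinearMap.ext fun x => add_tmul l l' _)
    (fun z κ l => LinearMap.ext fun x => (smul_tmul' z l _).symm)

/-- Auxiliary map. -/
def bs1 : K.V ⊗[B] L →ₗ[ℂ] N →ₗ[ℂ] L ⊗[B] (K.V ⊗[A] N) :=
  tlift (bs0 K L N) (fun y κ l => LinearMap.ext fun x => by
    change l ⊗ₜ[B] ((y • κ) ⊗ₜ[A] x) = (y • l) ⊗ₜ[B] (κ ⊗ₜ[A] x)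
    rw [← smul_tmul', smul_tmul])

theorem bs1_tmul (κ : K.V) (l : L) (x : N) :
    bs1 K L N (κ ⊗ₜ l) x = l ⊗ₜ[B] (κ ⊗ₜ[A] x) :=
  congrArg (fun F : N →ₗ[ℂ] L ⊗[B] (K.V ⊗[A] N) => F x) (tlift_tmul _ _ κ l)

/-- The inverse associativity map. -/
def asB : (K.V ⊗[B] L) ⊗[A] N →ₗ[ℂ] L ⊗[B] (K.V ⊗[A] N) :=
  tlift (bs1 K L N) (fun r z x => by
    induction z using TensorProduct.induction_on with
    | zero => simp only [smul_zero, map_zero, LinearMap.zero_apply]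
    | tmul κ l => rw [smul_tmul', bs1_tmul, bs1_tmul, smul_tmul]
    | add z z' h h' => simp only [smul_add, map_add, LinearMap.add_apply, h, h'])

theorem asB_tmul (κ : K.V) (l : L) (x : N) :
    asB K L N ((κ ⊗ₜ l) ⊗ₜ x) = l ⊗ₜ[B] (κ ⊗ₜ[A] x) :=
  (tlift_tmul _ _ _ x).trans (bs1_tmul K L N κ l x)

variable {K L N}

omit [Module ℂ N] [IsScalarTower ℂ A N] in
theorem text2 {P : Type} [AddCommGroup P] [Module ℂ P] {F G : L ⊗[B] (K.V ⊗[A] N) →ₗ[ℂ] P}
    (h : ∀ l κ x, F (l ⊗ₜ (κ ⊗ₜ x)) = G (l ⊗ₜ (κ ⊗ₜ x))) (z : L ⊗[B] (K.V ⊗[A] N)) :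
    F z = G z := by
  refine text (fun l w => ?_) z
  induction w using TensorProduct.induction_on with
  | zero => rw [tmul_zero, map_zero, map_zero]
  | tmul κ x => exact h l κ x
  | add w w' e e' => rw [tmul_add, map_add, map_add, e, e']

theorem asB_asA (z : L ⊗[B] (K.V ⊗[A] N)) : asB K L N (asA K L N z) = z :=
  text2 (F := (asB K L N).comp (asA K L N)) (G := LinearMap.id) (fun l κ x => by
    rw [LinearMap.comp_apply, asA_tmul, asB_tmul, LinearMap.id_apply]) z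

theorem asA_asB (z : (K.V ⊗[B] L) ⊗[A] N) : asA K L N (asB K L N z) = z := by
  refine text (F := (asA K L N).comp (asB K L N)) (G := LinearMap.id) (fun w x => ?_) z
  induction w using TensorProduct.induction_on with
  | zero => rw [zero_tmul, map_zero, map_zero]
  | tmul κ l => rw [LinearMap.comp_apply, asB_tmul, asA_tmul, LinearMap.id_apply]
  | add w w' e e' => rw [add_tmul, map_add, map_add, e, e']

end Assoc

end

end Vale.Agent.P286ET
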