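import Vale.Agent.P286ET.Res

/-!
# The evaluation morphism
-/

namespace Vale.Agent.P286ET

open CategoryTheory TensorProduct Ix
open Vale.Agent.P286.H847 (GD)
open Vale.Agent.P286.H847.GD
open Vale.Agent.P286.H353

noncomputable section

variable {T T' : TDat Ix} {c c' : ℂ} {K : Ker T T' c} {L : Ker T' T c'} (P : Pair K L)

section Q

variable (X : TObj T) (i k : Ix)

/-- The pairing with values in the family. -/
def q0 : (K.K i n).V →ₗ[ℂ] (X.M i).V →ₗ[ℂ] (L.K n k).V →ₗ[ℂ] (X.M (sup i k)).V :=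
  LinearMap.mk₂ ℂ (fun κ x =>
    { toFun := fun l => P.p i k κ l • X.rho (sl i k) x
      map_add' := fun l l' => by rw [map_add, add_smul]
      map_smul' := fun z l => by rw [map_smul, smul_assoc, RingHom.id_apply] })
    (fun κ κ' x => LinearMap.ext fun l => by
      change P.p i k (κ + κ') l • X.rho (sl i k) x =
        P.p i k κ l • X.rho (sl i k) x + P.p i k κ' l • X.rho (sl i k) x
      rw [map_add, LinearMap.add_apply, add_smul])
    (fun z κ x => LinearMap.ext fun l => by
      change P.p i k (z • κ) l • X.rho (sl i k) x = z • P.p i k κ l • X.rho (sl i k) x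
      rw [map_smul, LinearMap.smul_apply, smul_assoc])
    (fun κ x x' => LinearMap.ext fun l => by
      change P.p i k κ l • X.rho (sl i k) (x + x') =
        P.p i k κ l • X.rho (sl i k) x + P.p i k κ l • X.rho (sl i k) x'
      rw [map_add, smul_add])
    (fun z κ x => LinearMap.ext fun l => by
      change P.p i k κ l • X.rho (sl i k) (z • x) = z • P.p i k κ l • X.rho (sl i k) x
      rw [map_smul, smul_comm])

theorem q0_apply (κ : (K.K i n).V) (x : (X.M i).V) (l : (L.K n k).V) :
    q0 P X i k κ x l = P.p i k κ l • X.rho (sl i k) x := rfl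

/-- The pairing on the tensor product. -/
def q1 : TV K X i n →ₗ[ℂ] (L.K n k).V →ₗ[ℂ] (X.M (sup i k)).V :=
  tlift (q0 P X i k) (fun r κ x => LinearMap.ext fun l => by
    rw [q0_apply, q0_apply, P.p_l, X.rho_smul, smul_smul, mul_comm])

theorem q1_tmul (κ : (K.K i n).V) (x : (X.M i).V) (l : (L.K n k).V) :
    q1 P X i k (κ ⊗ₜ x) l = P.p i k κ l • X.rho (sl i k) x :=
  congrArg (fun F : (L.K n k).V →ₗ[ℂ] (X.M (sup i k)).V => F l) (tlift_tmul _ _ κ x)

theorem q1_m (y : T'.R n) (z : TV K X i n) (l : (L.K n k).V) :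
    q1 P X i k (y • z) l = q1 P X i k z (y • l) := by
  induction z using TensorProduct.induction_on with
  | zero => simp only [smul_zero, map_zero, LinearMap.zero_apply]
  | tmul κ x => rw [smul_tmul', q1_tmul, q1_tmul, P.p_m]
  | add z z' h h' => simp only [smul_add, map_add, LinearMap.add_apply, h, h']

theorem q1_r (r : T.R k) (z : TV K X i n) (l : (L.K n k).V) :
    q1 P X i k z (r • l) = T.tau (sr i k) r • q1 P X i k z l := by
  induction z using TensorProduct.induction_on with
  | zero => simp only [smul_zero, map_zero, LinearMap.zero_apply]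
  | tmul κ x => rw [q1_tmul, q1_tmul, P.p_r, mul_smul]
  | add z z' h h' => simp only [smul_add, map_add, LinearMap.add_apply, h, h']

theorem q1_d (z : TV K X i n) (l : (L.K n k).V) :
    q1 P X i k ((ten (K.K i n) (X.M i)).d z) l = (X.M (sup i k)).d (q1 P X i k z l) := by
  induction z using TensorProduct.induction_on with
  | zero => simp only [map_zero, LinearMap.zero_apply]
  | tmul κ x => rw [td_tmul, q1_tmul, q1_tmul, X.rho_d, RG.d_smul]
  | add z z' h h' => simp only [map_add, LinearMap.add_apply, h, h']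

theorem q1_gr (m : ℤ) (z : TV K X i n) (hz : z ∈ tgr (K.K i n).V (X.M i) m) (l : (L.K n k).V) :
    q1 P X i k z l ∈ (X.M (sup i k)).gr m :=
  tgr_map ((q1 P X i k).flip l) _ (fun κ x hx => by
    rw [LinearMap.flip_apply, q1_tmul]
    exact (X.M _).gr_smul m _ _ (X.rho_gr _ m x hx)) hz

theorem q1_E (z : TV K X i n) (l : (L.K n k).V) :
    q1 P X i k (tE K X i n z) l = X.e (sup i k) (q1 P X i k z l) := by
  induction z using TensorProduct.induction_on with
  | zero => simp only [map_zero, LinearMap.zero_apply]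
  | tmul κ x => rw [tE_tmul, q1_tmul, q1_tmul, X.rho_e, X.e_smul]
  | add z z' h h' => simp only [map_add, LinearMap.add_apply, h, h']

theorem q1_W (z : TV K X i n) (l : (L.K n k).V) :
    q1 P X i k (tW K X i n z) (L.w n k l) = X.w (sup i k) (q1 P X i k z l) := by
  induction z using TensorProduct.induction_on with
  | zero => simp only [map_zero, LinearMap.zero_apply]
  | tmul κ x => rw [tW_tmul, q1_tmul, q1_tmul, X.rho_w, X.w_smul, P.p_w]
  | add z z' h h' => simp only [map_add, LinearMap.add_apply, h, h']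

theorem q1_D (z : TV K X i n) (l : (L.K n k).V) :
    q1 P X i k z (L.D n k l) + c' • q1 P X i k (tD K X i n z) l =
      rD X (sr i k) (q1 P X i k z l) := by
  induction z using TensorProduct.induction_on with
  | zero => simp only [map_zero, LinearMap.zero_apply, smul_zero, add_zero]
  | tmul κ x =>
    have h := congrArg (· • X.rho (sl i k) x) (P.p_D i k κ l)
    simp only [add_smul, smul_assoc, mul_smul] at h
    rw [tD_tmul, map_add, map_smul, LinearMap.add_apply, LinearMap.smul_apply, q1_tmul, q1_tmul,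
      q1_tmul, q1_tmul, smul_add, smul_smul c' c, mul_comm c' c, P.cc, one_smul, rD_apply,
      X.D_smul, X.rho_D, smul_add, smul_comm (P.p i k κ l) (T.eta (sl i k)), add_assoc, ← h]
    abel
  | add z z' h h' =>
    simp only [map_add, LinearMap.add_apply, smul_add, ← h, ← h']
    abel

variable {i k}

theorem q1_R {i' k' : Ix} (u : i ⟶ i') (v : k ⟶ k') (z : TV K X i n) (l : (L.K n k).V) :
    q1 P X i' k' (tR K X u (𝟙 n) z) (L.r (𝟙 n) v l) = X.rho (sm u v) (q1 P X i k z l) := by
  induction z using TensorProduct.induction_on with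
  | zero => simp only [map_zero, LinearMap.zero_apply]
  | tmul κ x =>
    rw [tR_tmul, q1_tmul, q1_tmul, P.p_res, X.rho_smul, rho_rho X _ _ (u ≫ sl i' k'),
      rho_rho X _ _ (u ≫ sl i' k')]
  | add z z' h h' => simp only [map_add, LinearMap.add_apply, h, h']

theorem q1_L {Y : TObj T} {p : ℤ} (α : Co X Y p) (z : TV K X i n) (l : (L.K n k).V) :
    q1 P Y i k (tL K α i n z) l = α.f (sup i k) (q1 P X i k z l) := by
  induction z using TensorProduct.induction_on with
  | zero => simp only [map_zero, LinearMap.zero_apply]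
  | tmul κ x => rw [tL_tmul, q1_tmul, q1_tmul, α.isCo.lin, α.isCo.rho]
  | add z z' h h' => simp only [map_add, LinearMap.add_apply, h, h']

theorem q1_zero {j : Ix} (hp : ∀ (κ : (K.K i j).V) (l : (L.K j k).V),
      P.p i k (K.r (𝟙 i) (tn j) κ) (L.r (tn j) (𝟙 k) l) = 0)
    (z : TV K X i j) (l : (L.K j k).V) :
    q1 P X i k (tR K X (𝟙 i) (tn j) z) (L.r (tn j) (𝟙 k) l) = 0 := by
  induction z using TensorProduct.induction_on with
  | zero => simp only [map_zero, LinearMap.zero_apply]
  | tmul κ x => rw [tR_tmul, q1_tmul, hp, zero_smul]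
  | add z z' h h' => simp only [map_add, LinearMap.add_apply, h, h', add_zero]

end Q

variable (K) in
/-- The elements of the transform. -/
abbrev PV (X : TObj T) (j : Ix) : Type := TV K X n j × TV K X a j × TV K X b j

section E

variable (X : TObj T) (k : Ix)

/-- The pairing on the transform. -/
def e00 : (L.K n k).V →ₗ[ℂ] PV K X n →ₗ[ℂ] CV X k :=
  LinearMap.mk₂ ℂ (fun l (z : PV K X n) =>
    ((q1 P X n k z.1 l, q1 P X a k z.2.1 l, q1 P X b k z.2.2 l) : CV X k))
    (fun l l' z => by simp only [map_add, Prod.mk_add_mk])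
    (fun z l x => by simp only [map_smul, Prod.smul_mk])
    (fun l z z' => by simp only [Prod.fst_add, Prod.snd_add, map_add, LinearMap.add_apply,
      Prod.mk_add_mk])
    (fun z l x => by simp only [Prod.smul_fst, Prod.smul_snd, map_smul, LinearMap.smul_apply,
      Prod.smul_mk])

/-- The pairing on the transform. -/
def e0 : (L.K n k).V →ₗ[ℂ] (((phi K).obj X).M n).V →ₗ[ℂ] CV X k := e00 P X k

theorem e0_apply (l : (L.K n k).V) (z : PV K X n) :
    e0 P X k l z = (q1 P X n k z.1 l, q1 P X a k z.2.1 l, q1 P X b k z.2.2 l) := rfl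

/-- The evaluation on the intersection. -/
def e1 : TV L ((phi K).obj X) n k →ₗ[ℂ] CV X k :=
  tlift (e0 P X k) (fun y l (z : PV K X n) =>
    ext3 (q1_m P X n k y z.1 l).symm (q1_m P X a k y z.2.1 l).symm (q1_m P X b k y z.2.2 l).symm)

theorem e1_tmul (l : (L.K n k).V) (z : (((phi K).obj X).M n).V) :
    e1 P X k (l ⊗ₜ z) = e0 P X k l z := tlift_tmul _ _ l z

theorem e1_d (z : TV L ((phi K).obj X) n k) :
    e1 P X k ((ten (L.K n k) (((phi K).obj X).M n)).d z) =
      (((cee T).obj X).M k).d (e1 P X k z) := by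
  refine text (F := (e1 P X k).comp (ten (L.K n k) (((phi K).obj X).M n)).d)
    (G := (((cee T).obj X).M k).d.comp (e1 P X k)) (fun l z => ?_) z
  change e1 P X k ((ten (L.K n k) (((phi K).obj X).M n)).d (l ⊗ₜ z)) =
    (((cee T).obj X).M k).d (e1 P X k (l ⊗ₜ z))
  rw [td_tmul, e1_tmul, e1_tmul]
  revert z
  intro (z : PV K X n)
  refine ext3 ?_ ?_ ?_
  · change q1 P X n k ((ten (K.K n n) (X.M n)).d z.1 +
        (tR K X (tn a) (𝟙 n) z.2.1 - tR K X (tn b) (𝟙 n) z.2.2)) l =
      (X.M (sup n k)).d (q1 P X n k z.1 l) + (X.rho (sm (tn a) (𝟙 k)) (q1 P X a k z.2.1 l) -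
        X.rho (sm (tn b) (𝟙 k)) (q1 P X b k z.2.2 l))
    rw [map_add, map_sub, LinearMap.add_apply, LinearMap.sub_apply, q1_d, ← q1_R, ← q1_R, L.r_id]
  · change q1 P X a k (-((ten (K.K a n) (X.M a)).d z.2.1)) l =
      -((X.M (sup a k)).d (q1 P X a k z.2.1 l))
    rw [map_neg, LinearMap.neg_apply, q1_d]
  · change q1 P X b k (-((ten (K.K b n) (X.M b)).d z.2.2)) l =
      -((X.M (sup b k)).d (q1 P X b k z.2.2 l))
    rw [map_neg, LinearMap.neg_apply, q1_d]

theorem e1_gr (m : ℤ) (z : TV L ((phi K).obj X) n k)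
    (hz : z ∈ tgr (L.K n k).V (((phi K).obj X).M n) m) :
    e1 P X k z ∈ (((cee T).obj X).M k).gr m :=
  tgr_map (e1 P X k) ((((cee T).obj X).M k).gr m) (fun l z hz => by
    rw [e1_tmul]
    exact ⟨q1_gr P X n k m _ hz.1 l, q1_gr P X a k _ _ hz.2.1 l, q1_gr P X b k _ _ hz.2.2 l⟩) hz

theorem e1_zero {j : Ix} (hp : ∀ (i : Ix) (κ : (K.K i j).V) (l : (L.K j k).V),
      P.p i k (K.r (𝟙 i) (tn j) κ) (L.r (tn j) (𝟙 k) l) = 0) (z : TV L ((phi K).obj X) j k) :
    e1 P X k (tR L ((phi K).obj X) (tn j) (𝟙 k) z) = 0 := by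
  refine text (F := (e1 P X k).comp (tR L ((phi K).obj X) (tn j) (𝟙 k))) (G := 0)
    (fun l z => ?_) z
  rw [LinearMap.comp_apply, tR_tmul, e1_tmul]
  exact ext3 (q1_zero P X (hp n) _ l) (q1_zero P X (hp a) _ l) (q1_zero P X (hp b) _ l)

theorem e1_smul (r : T.R k) (z : TV L ((phi K).obj X) n k) :
    e1 P X k (r • z) = (T.tau (sr n k) r • (e1 P X k z).1, T.tau (sr a k) r • (e1 P X k z).2.1,
      T.tau (sr b k) r • (e1 P X k z).2.2) := by
  induction z using TensorProduct.induction_on with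
  | zero => simp only [smul_zero, map_zero, Prod.fst_zero, Prod.snd_zero]; rfl
  | tmul l z =>
    rw [smul_tmul', e1_tmul, e1_tmul]
    exact ext3 (q1_r P X n k r _ l) (q1_r P X a k r _ l) (q1_r P X b k r _ l)
  | add z z' h h' =>
    simp only [smul_add, map_add, h, h', Prod.fst_add, Prod.snd_add, Prod.mk_add_mk]

theorem e1_D (z : TV L ((phi K).obj X) n k) :
    e1 P X k (tD L ((phi K).obj X) n k z) = ((cee T).obj X).D k (e1 P X k z) := by
  refine text (F := (e1 P X k).comp (tD L ((phi K).obj X) n k))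
    (G := (((cee T).obj X).D k).comp (e1 P X k)) (fun l z => ?_) z
  change e1 P X k (tD L ((phi K).obj X) n k (l ⊗ₜ z)) =
    ((cee T).obj X).D k (e1 P X k (l ⊗ₜ z))
  rw [tD_tmul, map_add, map_smul, e1_tmul, e1_tmul, e1_tmul]
  exact ext3 (q1_D P X n k _ l) (q1_D P X a k _ l) (q1_D P X b k _ l)

theorem e1_E (z : TV L ((phi K).obj X) n k) :
    e1 P X k (tE L ((phi K).obj X) n k z) = ((cee T).obj X).e k (e1 P X k z) := by
  refine text (F := (e1 P X k).comp (tE L ((phi K).obj X) n k))
    (G := (((cee T).obj X).e k).comp (e1 P X k)) (fun l z => ?_) z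
  change e1 P X k (tE L ((phi K).obj X) n k (l ⊗ₜ z)) =
    ((cee T).obj X).e k (e1 P X k (l ⊗ₜ z))
  rw [tE_tmul, e1_tmul, e1_tmul]
  revert z
  intro (z : PV K X n)
  refine ext3 (q1_E P X n k _ l) ?_ ?_
  · change q1 P X a k (-(tE K X a n z.2.1)) l = -(X.e _ (q1 P X a k z.2.1 l))
    rw [map_neg, LinearMap.neg_apply, q1_E]
  · change q1 P X b k (-(tE K X b n z.2.2)) l = -(X.e _ (q1 P X b k z.2.2 l))
    rw [map_neg, LinearMap.neg_apply, q1_E]

theorem e1_W (z : TV L ((phi K).obj X) n k) :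
    e1 P X k (tW L ((phi K).obj X) n k z) = ((cee T).obj X).w k (e1 P X k z) := by
  refine text (F := (e1 P X k).comp (tW L ((phi K).obj X) n k))
    (G := (((cee T).obj X).w k).comp (e1 P X k)) (fun l z => ?_) z
  change e1 P X k (tW L ((phi K).obj X) n k (l ⊗ₜ z)) =
    ((cee T).obj X).w k (e1 P X k (l ⊗ₜ z))
  rw [tW_tmul, e1_tmul, e1_tmul]
  exact ext3 (q1_W P X n k _ l) (q1_W P X a k _ l) (q1_W P X b k _ l)

theorem e1_R {k' : Ix} (v : k ⟶ k') (z : TV L ((phi K).obj X) n k) :
    e1 P X k' (tR L ((phi K).obj X) (𝟙 n) v z) = ((cee T).obj X).rho v (e1 P X k z) := by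
  refine text (F := (e1 P X k').comp (tR L ((phi K).obj X) (𝟙 n) v))
    (G := (((cee T).obj X).rho v).comp (e1 P X k)) (fun l z => ?_) z
  change e1 P X k' (tR L ((phi K).obj X) (𝟙 n) v (l ⊗ₜ z)) =
    ((cee T).obj X).rho v (e1 P X k (l ⊗ₜ z))
  rw [tR_tmul, e1_tmul, e1_tmul]
  exact ext3 (q1_R P X (𝟙 n) v _ l) (q1_R P X (𝟙 a) v _ l) (q1_R P X (𝟙 b) v _ l)

theorem e1_L {Y : TObj T} {p : ℤ} (α : Co X Y p) (z : TV L ((phi K).obj X) n k) :
    e1 P Y k (tL L ((phi K).map p α) n k z) = ((cee T).map p α).f k (e1 P X k z) := by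
  refine text (F := (e1 P Y k).comp (tL L ((phi K).map p α) n k))
    (G := (((cee T).map p α).f k).comp (e1 P X k)) (fun l z => ?_) z
  change e1 P Y k (tL L ((phi K).map p α) n k (l ⊗ₜ z)) =
    ((cee T).map p α).f k (e1 P X k (l ⊗ₜ z))
  rw [tL_tmul, e1_tmul, e1_tmul]
  revert z
  intro (z : PV K X n)
  refine ext3 (q1_L P X α _ l) ?_ ?_
  · change q1 P Y a k ((p.negOnePow : ℤ) • tL K α a n z.2.1) l =
      (p.negOnePow : ℤ) • α.f _ (q1 P X a k z.2.1 l)
    rw [map_zsmul, LinearMap.smul_apply, q1_L]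
  · change q1 P Y b k ((p.negOnePow : ℤ) • tL K α b n z.2.2) l =
      (p.negOnePow : ℤ) • α.f _ (q1 P X b k z.2.2 l)
    rw [map_zsmul, LinearMap.smul_apply, q1_L]

/-- The evaluation. -/
def evL : PV L ((phi K).obj X) k →ₗ[ℂ] CV X k := (e1 P X k).comp (LinearMap.fst ℂ _ _)

theorem evL_apply (z : PV L ((phi K).obj X) k) : evL P X k z = e1 P X k z.1 := rfl

end E

/-- The evaluation morphism. -/
def evN : NT ((phi K).comp (phi L)) (cee T) where
  app X :=
    { co := Co.mk (fun k => evL P X k)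
        ⟨fun k m z hz => by
            rw [add_zero]
            exact e1_gr P X k m _ hz.1,
          fun k r z => e1_smul P X k r z.1,
          fun k z => e1_D P X k z.1,
          fun k z => by
            rw [Int.negOnePow_zero, Units.val_one, one_smul]
            exact e1_E P X k z.1,
          fun k z => e1_W P X k z.1,
          fun v z => e1_R P X _ v z.1⟩
      cl := fun k (z : PV L ((phi K).obj X) k) => by
        change e1 P X k ((ten (L.K n k) (((phi K).obj X).M n)).d z.1 +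
          (tR L ((phi K).obj X) (tn a) (𝟙 k) z.2.1 - tR L ((phi K).obj X) (tn b) (𝟙 k) z.2.2)) =
          (((cee T).obj X).M k).d (e1 P X k z.1)
        rw [map_add, map_sub, e1_zero P X k (fun i => P.p_a i k), e1_zero P X k (fun i => P.p_b i k),
          sub_self, add_zero]
        exact e1_d P X k z.1 }
  nat p α k z := e1_L P _ k α z.1

end

end Vale.Agent.P286ET
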