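import Vale.Agent.P286ET.Lev

/-!
# The evaluation morphism is a quasi-isomorphism
-/

namespace Vale.Agent.P286ET

open CategoryTheory TensorProduct Ix
open Vale.Agent.P286.H847 (GD)
open Vale.Agent.P286.H847.GD

noncomputable section

attribute [local instance] instCommRingVia instAlgebraComplexVia instAlgebraVia
  instIsScalarTowerComplexVia

section Three

variable {A : Type} [CommRing A] [Algebra ℂ A]
  (X : Type) [AddCommGroup X] [Module ℂ X] [Module A X] [IsScalarTower ℂ A X]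
  (U V W : Type) [AddCommGroup U] [Module ℂ U] [Module A U] [IsScalarTower ℂ A U]
  [AddCommGroup V] [Module ℂ V] [Module A V] [IsScalarTower ℂ A V]
  [AddCommGroup W] [Module ℂ W] [Module A W] [IsScalarTower ℂ A W]

variable (A) in
/-- The decomposition. -/
def sp3 : X ⊗[A] (U × V × W) →ₗ[ℂ] (X ⊗[A] U × X ⊗[A] V × X ⊗[A] W) :=
  (tp1 A X U (V × W)).prod (((tp1 A X V W).comp (tp2 A X U (V × W))).prod
    ((tp2 A X V W).comp (tp2 A X U (V × W))))

variable (A) in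
/-- The inverse of the decomposition. -/
def jn3 : (X ⊗[A] U × X ⊗[A] V × X ⊗[A] W) →ₗ[ℂ] X ⊗[A] (U × V × W) :=
  (ti1 A X U (V × W)).coprod ((ti2 A X U (V × W)).comp ((ti1 A X V W).coprod (ti2 A X V W)))

variable {X U V W}

theorem sp3_tmul (l : X) (z : U × V × W) :
    sp3 A X U V W (l ⊗ₜ z) = (l ⊗ₜ z.1, l ⊗ₜ z.2.1, l ⊗ₜ z.2.2) := by
  refine ext3 (tp1_tmul l z) ?_ ?_
  · change tp1 A X V W (tp2 A X U (V × W) (l ⊗ₜ z)) = _
    rw [tp2_tmul, tp1_tmul]
  · change tp2 A X V W (tp2 A X U (V × W) (l ⊗ₜ z)) = _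
    rw [tp2_tmul, tp2_tmul]

theorem jn3_apply (x : X ⊗[A] U × X ⊗[A] V × X ⊗[A] W) : jn3 A X U V W x =
    ti1 A X U (V × W) x.1 + ti2 A X U (V × W) (ti1 A X V W x.2.1 + ti2 A X V W x.2.2) := rfl

theorem jn3_sp3 (z : X ⊗[A] (U × V × W)) : jn3 A X U V W (sp3 A X U V W z) = z := by
  rw [jn3_apply]
  change ti1 A X U (V × W) (tp1 A X U (V × W) z) + ti2 A X U (V × W)
    (ti1 A X V W (tp1 A X V W (tp2 A X U (V × W) z)) +
      ti2 A X V W (tp2 A X V W (tp2 A X U (V × W) z))) = z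
  rw [ti_tp, ti_tp]

theorem sp3_jn3 (x : X ⊗[A] U × X ⊗[A] V × X ⊗[A] W) : sp3 A X U V W (jn3 A X U V W x) = x := by
  rw [jn3_apply]
  refine ext3 ?_ ?_ ?_
  · change tp1 A X U (V × W) _ = _
    rw [map_add, tp1_i1, tp1_i2, add_zero]
  · change tp1 A X V W (tp2 A X U (V × W) _) = _
    rw [map_add, tp2_i1, tp2_i2, zero_add, map_add, tp1_i1, tp1_i2, add_zero]
  · change tp2 A X V W (tp2 A X U (V × W) _) = _
    rw [map_add, tp2_i1, tp2_i2, zero_add, map_add, tp2_i1, tp2_i2, zero_add]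

end Three

variable {T T' : TDat Ix} {c c' : ℂ} {K : Ker T T' c} {L : Ker T' T c'} (P : Pair K L)
  (X : TObj T) (k : Ix)

variable (K) in
/-- The restriction, as a morphism. -/
def tRH (i j : Ix) : Hom (ten (K.K i j) (X.M i)).toGD (ten (K.K n j) (X.M n)).toGD :=
  ⟨tR K X (tn i) (𝟙 j), tR_d K X (tn i) (𝟙 j), tR_gr K X (tn i) (𝟙 j)⟩

variable (K) in
/-- The transform on the chart `j`. -/
abbrev pM (j : Ix) : RG (T'.R j) :=
  rcone (M := rprod (ten (K.K a j) (X.M a)) (ten (K.K b j) (X.M b))) (N := ten (K.K n j) (X.M n))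
    (gdel (tRH K X a j) (tRH K X b j)) (del_lin ((tenN K a).app X) ((tenN K b).app X) j)

variable (K L) in
/-- The three components. -/
abbrev Y3 (j : Ix) : Type :=
  YY K L n k (X.M n).V j × YY K L a k (X.M a).V j × YY K L b k (X.M b).V j

variable (K L) in
/-- The decomposition. -/
def sp (j : Ix) : (L.K j k).V ⊗[T'.R j] PV K X j →ₗ[ℂ] Y3 K L X k j :=
  sp3 (T'.R j) (L.K j k).V (TV K X n j) (TV K X a j) (TV K X b j)

variable (K L) in
/-- The inverse of the decomposition. -/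
def jn (j : Ix) : Y3 K L X k j →ₗ[ℂ] (L.K j k).V ⊗[T'.R j] PV K X j :=
  jn3 (T'.R j) (L.K j k).V (TV K X n j) (TV K X a j) (TV K X b j)

theorem sp_tmul (j : Ix) (l : (L.K j k).V) (z : PV K X j) :
    sp K L X k j (l ⊗ₜ z) = (l ⊗ₜ z.1, l ⊗ₜ z.2.1, l ⊗ₜ z.2.2) := sp3_tmul l z

theorem sp_gr (j : Ix) (m : ℤ) (z : (L.K j k).V ⊗[T'.R j] PV K X j)
    (hz : z ∈ tgr (L.K j k).V (pM K X j) m) :
    (sp K L X k j z).1 ∈ SS K L n k (X.M n) m j ∧ (sp K L X k j z).2.1 ∈ SS K L a k (X.M a) (m + 1) j ∧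
      (sp K L X k j z).2.2 ∈ SS K L b k (X.M b) (m + 1) j :=
  tgr_map (M := pM K X j) (sp K L X k j) ((SS K L n k (X.M n) m j).prod
    ((SS K L a k (X.M a) (m + 1) j).prod (SS K L b k (X.M b) (m + 1) j))) (fun l x hx => by
      rw [sp_tmul]
      exact ⟨tgr_tmul (M := ten (K.K n j) (X.M n)) l hx.1,
        tgr_tmul (M := ten (K.K a j) (X.M a)) l hx.2.1,
        tgr_tmul (M := ten (K.K b j) (X.M b)) l hx.2.2⟩) hz

theorem jn_gr (j : Ix) (m : ℤ) (x : Y3 K L X k j) (h1 : x.1 ∈ SS K L n k (X.M n) m j)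
    (h2 : x.2.1 ∈ SS K L a k (X.M a) (m + 1) j) (h3 : x.2.2 ∈ SS K L b k (X.M b) (m + 1) j) :
    jn K L X k j x ∈ tgr (L.K j k).V (pM K X j) m := by
  rw [jn, jn3_apply, map_add]
  refine add_mem ?_ (add_mem ?_ ?_)
  · refine tgr_map (M := ten (K.K n j) (X.M n)) _ _ (fun l x hx => ?_) h1
    rw [ti1_tmul]
    exact tgr_tmul (M := pM K X j) l ⟨hx, zero_mem _⟩
  · refine tgr_map (M := ten (K.K a j) (X.M a))
      ((ti2 (T'.R j) (L.K j k).V (TV K X n j) (TV K X a j × TV K X b j)).comp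
        (ti1 (T'.R j) (L.K j k).V (TV K X a j) (TV K X b j))) _ (fun l x hx => ?_) h2
    rw [LinearMap.comp_apply, ti1_tmul, ti2_tmul]
    exact tgr_tmul (M := pM K X j) l ⟨zero_mem _, hx, zero_mem _⟩
  · refine tgr_map (M := ten (K.K b j) (X.M b))
      ((ti2 (T'.R j) (L.K j k).V (TV K X n j) (TV K X a j × TV K X b j)).comp
        (ti2 (T'.R j) (L.K j k).V (TV K X a j) (TV K X b j))) _ (fun l x hx => ?_) h3
    rw [LinearMap.comp_apply, ti2_tmul, ti2_tmul]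
    exact tgr_tmul (M := pM K X j) l ⟨zero_mem _, zero_mem _, hx⟩

variable (K L) in
/-- The restriction. -/
def RH (j : Ix) : Hom (tenG (L.K j k).V (pM K X j)) (tenG (L.K n k).V (pM K X n)) :=
  tRH L ((phi K).obj X) j k

theorem RH_tmul (j : Ix) (l : (L.K j k).V) (z : PV K X j) :
    (RH K L X k j).f (l ⊗ₜ z) = L.r (tn j) (𝟙 k) l ⊗ₜ
      ((tR K X (𝟙 n) (tn j) z.1, tR K X (𝟙 a) (tn j) z.2.1, tR K X (𝟙 b) (tn j) z.2.2) :
        PV K X n) :=
  tR_tmul L ((phi K).obj X) (tn j) (𝟙 k) l z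

theorem tR_kr (i j : Ix) (z : TV K X i j) : tR K X (𝟙 i) (tn j) z = kr K i (X.M i).V j z :=
  text (fun κ x => by rw [tR_tmul, kr_tmul, X.rho_id]) z

theorem sp_RH (j : Ix) (z : (L.K j k).V ⊗[T'.R j] PV K X j) :
    sp K L X k n ((RH K L X k j).f z) = (yr K L n k _ j (sp K L X k j z).1,
      yr K L a k _ j (sp K L X k j z).2.1, yr K L b k _ j (sp K L X k j z).2.2) :=
  text (F := (sp K L X k n).comp (RH K L X k j).f)
    (G := ((yr K L n k _ j).prodMap ((yr K L a k _ j).prodMap (yr K L b k _ j))).comp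
      (sp K L X k j)) (fun l x => by
      rw [LinearMap.comp_apply, LinearMap.comp_apply, RH_tmul, sp_tmul, sp_tmul, tR_kr, tR_kr,
        tR_kr]
      exact (ext3 (yr_tmul n k _ j l x.1) (yr_tmul a k _ j l x.2.1) (yr_tmul b k _ j l x.2.2)).symm)
    z

/-- The base change to the intersection. -/
abbrev ZG (i : Ix) : GD := tenG (ZZ T i k) (X.M i)

/-- The ring map between the intersections. -/
def zt (T : TDat Ix) (i k : Ix) : ZZ T i k →ₗ[ℂ] ZZ T n k :=
  ((toV (T.tau (sl n k))).comp ((T.tau (sm (tn i) (𝟙 k))).comp (ofV (T.tau (sl i k))))).toLinearMap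

theorem zt_apply (i : Ix) (y : ZZ T i k) :
    zt T i k y = toV _ (T.tau (sm (tn i) (𝟙 k)) (ofV _ y)) := rfl

theorem zt_smul (i : Ix) (r : T.R i) (y : ZZ T i k) :
    zt T i k (r • y) = T.tau (tn i) r • zt T i k y := by
  rw [zt_apply, zt_apply, via_smul, via_smul, map_mul, map_mul, map_mul, ofV_toV,
    tau_tau _ _ (tn i ≫ sl n k), T.tau_comp]

/-- The restriction. -/
def zL (i : Ix) : ZZ T i k ⊗[T.R i] (X.M i).V →ₗ[ℂ] ZZ T n k ⊗[T.R n] (X.M n).V :=
  tmap (T.tau (tn i)) (zt T i k) (X.rho (tn i)) (zt_smul k i) (X.rho_smul _)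

theorem zL_tmul (i : Ix) (y : ZZ T i k) (x : (X.M i).V) :
    zL X k i (y ⊗ₜ x) = zt T i k y ⊗ₜ X.rho (tn i) x := tmap_tmul _ _ _ _ _ y x

/-- The restriction. -/
def zH (i : Ix) : Hom (ZG X k i) (ZG X k n) where
  f := zL X k i
  comm z := by
    induction z using TensorProduct.induction_on with
    | zero => simp only [map_zero]
    | tmul y x => rw [lt_tmul, zL_tmul, zL_tmul, lt_tmul, X.rho_d]
    | add z z' h h' => simp only [map_add, h, h']
  deg m z hz := tgr_map _ _ (fun y x hx => by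
    rw [zL_tmul]
    exact tgr_tmul _ (X.rho_gr _ m x hx)) hz

/-- The comparison with the family. -/
def bH (i : Ix) : Hom (ZG X k i) (X.M (sup i k)).toGD :=
  bcH (T.tau (sl i k)) (rhoH X (sl i k)) (X.rho_smul _)

theorem bH_tmul (i : Ix) (y : ZZ T i k) (x : (X.M i).V) :
    (bH X k i).f (y ⊗ₜ x) = ofV _ y • X.rho (sl i k) x :=
  bcL_tmul (T.tau (sl i k)) (rhoH X (sl i k)) (X.rho_smul _) y x

theorem bH_qis (hX : Cart X) (i : Ix) : Qis (bH X k i) :=
  bcH_qis _ _ _ (T.away (sl i k)) (hX (sl i k))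

theorem bH_zL (i : Ix) (z : ZZ T i k ⊗[T.R i] (X.M i).V) :
    (bH X k n).f (zL X k i z) = X.rho (sm (tn i) (𝟙 k)) ((bH X k i).f z) :=
  text (F := (bH X k n).f.comp (zL X k i)) (G := (X.rho (sm (tn i) (𝟙 k))).comp (bH X k i).f)
    (fun y x => by
      rw [LinearMap.comp_apply, LinearMap.comp_apply, zL_tmul, bH_tmul, bH_tmul, zt_apply, ofV_toV,
        X.rho_smul, rho_rho X _ _ (tn i ≫ sl n k), rho_rho X _ _ (tn i ≫ sl n k)]) z

/-- The comparison of the Cech complexes. -/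
def bbH : Hom (gce (zH X k a) (zH X k b))
    (gce (rhoH X (sm (tn a) (𝟙 k))) (rhoH X (sm (tn b) (𝟙 k)))) where
  f := (bH X k n).f.prodMap ((bH X k a).f.prodMap (bH X k b).f)
  comm z := by
    refine ext3 ?_ ?_ ?_
    · change (bH X k n).f ((ZG X k n).d z.1 + (zL X k a z.2.1 - zL X k b z.2.2)) =
        (X.M (sup n k)).d ((bH X k n).f z.1) + (X.rho (sm (tn a) (𝟙 k)) ((bH X k a).f z.2.1) -
          X.rho (sm (tn b) (𝟙 k)) ((bH X k b).f z.2.2))
      rw [map_add, map_sub, (bH X k n).comm, bH_zL, bH_zL]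
    · change (bH X k a).f (-((ZG X k a).d z.2.1)) = -((X.M (sup a k)).d ((bH X k a).f z.2.1))
      rw [map_neg, (bH X k a).comm]
    · change (bH X k b).f (-((ZG X k b).d z.2.2)) = -((X.M (sup b k)).d ((bH X k b).f z.2.2))
      rw [map_neg, (bH X k b).comm]
  deg m z hz := ⟨(bH X k n).deg _ _ hz.1, (bH X k a).deg _ _ hz.2.1, (bH X k b).deg _ _ hz.2.2⟩

theorem bbH_qis (hX : Cart X) : Qis (bbH X k) := by
  let F : Hom (gprod (ZG X k a) (ZG X k b)) (gprod (X.M (sup a k)).toGD (X.M (sup b k)).toGD) :=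
    ⟨(bH X k a).f.prodMap (bH X k b).f,
      fun x => Prod.ext ((bH X k a).comm x.1) ((bH X k b).comm x.2),
      fun m x hx => ⟨(bH X k a).deg m _ hx.1, (bH X k b).deg m _ hx.2⟩⟩
  refine qis_cone (f := F) (g := bH X k n) (fun x => ?_)
    (qis_prod (bH_qis X k hX a) (bH_qis X k hX b) F (fun _ => rfl)) (bH_qis X k hX n) _
    (fun _ => rfl)
  change (bH X k n).f (zL X k a x.1 - zL X k b x.2) =
    X.rho (sm (tn a) (𝟙 k)) ((bH X k a).f x.1) - X.rho (sm (tn b) (𝟙 k)) ((bH X k b).f x.2)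
  rw [map_sub, bH_zL, bH_zL]

/-- The pairing. -/
def vL : (L.K n k).V ⊗[T'.R n] PV K X n →ₗ[ℂ]
    (ZZ T n k ⊗[T.R n] (X.M n).V × ZZ T a k ⊗[T.R a] (X.M a).V × ZZ T b k ⊗[T.R b] (X.M b).V) :=
  ((yp n k P (X.M n).V).prodMap ((yp a k P (X.M a).V).prodMap (yp b k P (X.M b).V))).comp
    (sp K L X k n)

theorem vL_apply (z : (L.K n k).V ⊗[T'.R n] PV K X n) : vL P X k z =
    (yp n k P _ (sp K L X k n z).1, yp a k P _ (sp K L X k n z).2.1,
      yp b k P _ (sp K L X k n z).2.2) := rfl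

theorem yp_d (i : Ix) (l : (L.K n k).V) (z : TV K X i n) :
    yp i k P _ (l ⊗ₜ (ten (K.K i n) (X.M i)).d z) = (ZG X k i).d (yp i k P _ (l ⊗ₜ z)) := by
  induction z using TensorProduct.induction_on with
  | zero => simp only [map_zero, tmul_zero]
  | tmul κ x => rw [td_tmul, yp_tmul, yp_tmul, lt_tmul]
  | add z z' h h' => simp only [map_add, tmul_add, h, h']

theorem yp_R (i : Ix) (l : (L.K n k).V) (z : TV K X i n) :
    yp n k P _ (l ⊗ₜ tR K X (tn i) (𝟙 n) z) = zL X k i (yp i k P _ (l ⊗ₜ z)) := by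
  induction z using TensorProduct.induction_on with
  | zero => simp only [map_zero, tmul_zero]
  | tmul κ x =>
    rw [tR_tmul, yp_tmul, yp_tmul, zL_tmul, zt_apply, ofV_toV, ← P.p_res, L.r_id]
  | add z z' h h' => simp only [map_add, tmul_add, h, h']

theorem yp_b (i : Ix) (l : (L.K n k).V) (z : TV K X i n) :
    (bH X k i).f (yp i k P _ (l ⊗ₜ z)) = q1 P X i k z l := by
  induction z using TensorProduct.induction_on with
  | zero => simp only [map_zero, tmul_zero, LinearMap.zero_apply]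
  | tmul κ x => rw [yp_tmul, bH_tmul, q1_tmul, ofV_toV]
  | add z z' h h' => simp only [map_add, tmul_add, LinearMap.add_apply, h, h']

theorem pM_d (l : (L.K n k).V) (z : PV K X n) :
    (tenG (L.K n k).V (pM K X n)).d (l ⊗ₜ z) = l ⊗ₜ (((ten (K.K n n) (X.M n)).d z.1 +
      (tR K X (tn a) (𝟙 n) z.2.1 - tR K X (tn b) (𝟙 n) z.2.2), -((ten (K.K a n) (X.M a)).d z.2.1),
        -((ten (K.K b n) (X.M b)).d z.2.2)) : PV K X n) :=
  lt_tmul (pM K X n).d (pM K X n).d_smul l z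

/-- The pairing. -/
def vH : Hom (tenG (L.K n k).V (pM K X n)) (gce (zH X k a) (zH X k b)) where
  f := vL P X k
  comm := text (F := (vL P X k).comp (tenG (L.K n k).V (pM K X n)).d)
    (G := (gce (zH X k a) (zH X k b)).d.comp (vL P X k)) (fun l z => by
      rw [LinearMap.comp_apply, LinearMap.comp_apply, pM_d, vL_apply, vL_apply, sp_tmul, sp_tmul]
      refine ext3 ?_ ?_ ?_
      · change yp n k P _ (l ⊗ₜ ((ten (K.K n n) (X.M n)).d z.1 +
            (tR K X (tn a) (𝟙 n) z.2.1 - tR K X (tn b) (𝟙 n) z.2.2))) =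
          (ZG X k n).d (yp n k P _ (l ⊗ₜ z.1)) +
            (zL X k a (yp a k P _ (l ⊗ₜ z.2.1)) - zL X k b (yp b k P _ (l ⊗ₜ z.2.2)))
        rw [tmul_add, tmul_sub, map_add, map_sub, yp_d, yp_R, yp_R]
      · change yp a k P _ (l ⊗ₜ (-((ten (K.K a n) (X.M a)).d z.2.1))) =
          -((ZG X k a).d (yp a k P _ (l ⊗ₜ z.2.1)))
        rw [tmul_neg, map_neg, yp_d]
      · change yp b k P _ (l ⊗ₜ (-((ten (K.K b n) (X.M b)).d z.2.2))) =
          -((ZG X k b).d (yp b k P _ (l ⊗ₜ z.2.2)))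
        rw [tmul_neg, map_neg, yp_d])
  deg m z hz := by
    obtain ⟨h1, h2, h3⟩ := sp_gr X k n m z hz
    exact ⟨lev_gr n k P _ _ _ h1, lev_gr a k P _ _ _ h2, lev_gr b k P _ _ _ h3⟩

theorem sp_inj (j : Ix) {z z' : (L.K j k).V ⊗[T'.R j] PV K X j}
    (h : sp K L X k j z = sp K L X k j z') : z = z' := by
  rw [← jn3_sp3 z, ← jn3_sp3 z']
  exact congrArg (jn K L X k j) h

theorem sp_jn (j : Ix) (x : Y3 K L X k j) : sp K L X k j (jn K L X k j x) = x := sp3_jn3 x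

theorem vL_RH {j : Ix} (hp : ∀ (i : Ix) (κ : (K.K i j).V) (l : (L.K j k).V),
      P.p i k (K.r (𝟙 i) (tn j) κ) (L.r (tn j) (𝟙 k) l) = 0)
    (z : (L.K j k).V ⊗[T'.R j] PV K X j) : vL P X k ((RH K L X k j).f z) = 0 := by
  rw [vL_apply, sp_RH]
  exact ext3 (y_zero n k P _ (hp n) _) (y_zero a k P _ (hp a) _) (y_zero b k P _ (hp b) _)

theorem ev_ses : GSes (gdel (RH K L X k a) (RH K L X k b)) (vH P X k) := by
  refine ⟨?_, ?_, ?_, ?_⟩
  · intro x
    change vL P X k ((RH K L X k a).f x.1 - (RH K L X k b).f x.2) = 0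
    rw [map_sub, vL_RH P X k (fun i => P.p_a i k), vL_RH P X k (fun i => P.p_b i k), sub_self]
  · rintro m ⟨x, y⟩ - h
    have h0 : (RH K L X k a).f x = (RH K L X k b).f y := sub_eq_zero.1 h
    have h1 := congrArg (sp K L X k n) h0
    rw [sp_RH, sp_RH] at h1
    obtain ⟨a1, b1⟩ := y_inj n k P _ _ _ (congrArg Prod.fst h1)
    obtain ⟨a2, b2⟩ := y_inj a k P _ _ _ (congrArg (fun x => x.2.1) h1)
    obtain ⟨a3, b3⟩ := y_inj b k P _ _ _ (congrArg (fun x => x.2.2) h1)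
    refine Prod.ext (sp_inj X k a ?_) (sp_inj X k b ?_)
    · exact (ext3 a1 a2 a3).trans (map_zero (sp K L X k a)).symm
    · exact (ext3 b1 b2 b3).trans (map_zero (sp K L X k b)).symm
  · intro m z hz h
    obtain ⟨h1, h2, h3⟩ := sp_gr X k n m z hz
    have h' : vL P X k z = 0 := h
    rw [vL_apply] at h'
    obtain ⟨x1, g1, y1, f1, e1⟩ := lev_mid n k P _ _ _ h1 (congrArg Prod.fst h')
    obtain ⟨x2, g2, y2, f2, e2⟩ := lev_mid a k P _ _ _ h2 (congrArg (fun x => x.2.1) h')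
    obtain ⟨x3, g3, y3, f3, e3⟩ := lev_mid b k P _ _ _ h3 (congrArg (fun x => x.2.2) h')
    refine ⟨(jn K L X k a (x1, x2, x3), jn K L X k b (y1, y2, y3)),
      ⟨jn_gr X k a m _ g1 g2 g3, jn_gr X k b m _ f1 f2 f3⟩, sp_inj X k n ?_⟩
    change _ = sp K L X k n ((RH K L X k a).f (jn K L X k a (x1, x2, x3)) -
      (RH K L X k b).f (jn K L X k b (y1, y2, y3)))
    rw [map_sub, sp_RH, sp_RH, sp_jn, sp_jn]
    exact ext3 e1 e2 e3
  · rintro m ⟨z1, z2, z3⟩ ⟨h1, h2, h3⟩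
    obtain ⟨y1, g1, e1⟩ := lev_surj n k P _ _ _ h1
    obtain ⟨y2, g2, e2⟩ := lev_surj a k P _ _ _ h2
    obtain ⟨y3, g3, e3⟩ := lev_surj b k P _ _ _ h3
    refine ⟨jn K L X k n (y1, y2, y3), jn_gr X k n m _ g1 g2 g3, ?_⟩
    change vL P X k _ = _
    rw [vL_apply, sp_jn]
    exact ext3 e1 e2 e3

/-- The projection. -/
def vvH : Hom (gce (RH K L X k a) (RH K L X k b)) (gce (zH X k a) (zH X k b)) where
  f := (vL P X k).comp (LinearMap.fst ℂ _ _)
  comm z := by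
    change (vH P X k).f (_ + (gdel (RH K L X k a) (RH K L X k b)).f z.2) = _
    rw [map_add, (ev_ses P X k).zero, add_zero]
    exact (vH P X k).comm z.1
  deg m z hz := (vH P X k).deg m _ hz.1

theorem bb_v (z : (L.K n k).V ⊗[T'.R n] PV K X n) :
    (bbH X k).f (vL P X k z) = e1 P X k z :=
  text (F := (bbH X k).f.comp (vL P X k)) (G := e1 P X k) (fun l x => by
    refine Eq.trans ?_ (e1_tmul P X k l x).symm
    rw [LinearMap.comp_apply, vL_apply, sp_tmul]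
    exact ext3 (yp_b P X k n l x.1) (yp_b P X k a l x.2.1) (yp_b P X k b l x.2.2)) z

theorem ev_qis (hX : Cart X) : Qis (((evN P).app X).gd k) :=
  qis_congr (u := (bbH X k).comp (vvH P X k)) (fun z => bb_v P X k z.1)
    (Qis.comp (bbH_qis X k hX) ((ev_ses P X k).qis_quot (vvH P X k) (fun _ => rfl)))

end

end Vale.Agent.P286ET
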