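import Vale.Agent.P286ET.Evq

/-!
# The abstract Fourier-Mukai equivalence
-/

namespace Vale.Agent.P286ET

open CategoryTheory Ix
open Vale.Agent.P286.H847 (GD)
open Vale.Agent.P286.H353

noncomputable section

theorem zig_pair {T T' : TDat Ix} {c c' : ℂ} {K : Ker T T' c} {L : Ker T' T c'} (P : Pair K L) :
    Zig (WM T) (((phi K).dm (phi_pc K)).z0 ⋙ ((phi L).dm (phi_pc L)).z0)
      ((shF 1 T).dm (shF_pc 1)).z0 := by
  rw [TF.dm_comp]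
  exact ((evN P).natW _ cee_pc (fun X hX k => ev_qis P X k hX)).zig.trans
    ((unN T).natW (shF_pc 1) cee_pc (fun X _ k => un_qis X k)).zig.symm

theorem zig_sh {I : Type} [SmallCategory I] (T : TDat I) (s t : ℤ) (h : s + t = 0) :
    Zig (WM T) (((shF s T).dm (shF_pc s)).z0 ⋙ ((shF t T).dm (shF_pc t)).z0) (𝟭 _) := by
  rw [TF.dm_comp, ← TF.dm_id]
  exact ((shsh s t h T).natW _ _ (fun X _ i => shsh_qis s t h X i)).zig

theorem inv_formal {C D : Type*} [Category* C] [Category* D] {W : MorphismProperty C}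
    {W' : MorphismProperty D} (A A' : C ⥤ D) (B : D ⥤ C) (S U : C ⥤ C) (S' U' : D ⥤ D)
    (hA : Pres W W' A) (hA' : Pres W W' A') (hB : Pres W' W B) (hU : Pres W W U)
    (hU' : Pres W' W' U') (h1 : Zig W (A ⋙ B) S) (h2 : Zig W' (B ⋙ A') S')
    (h3 : Zig W (S ⋙ U) (𝟭 C)) (h4 : Zig W (U ⋙ S) (𝟭 C)) (h5 : Zig W' (S' ⋙ U') (𝟭 D)) :
    Inv W W' A (B ⋙ U) where
  pF := hA
  pG _ _ u hu := hU _ (hB u hu)
  un := Zig.trans (h1.right U hU) h3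
  co := by
    have hR : Pres W W' (A' ⋙ U') := fun _ _ u hu => hU' _ (hA' u hu)
    have r1 : Zig W' (B ⋙ A' ⋙ U') (𝟭 D) := Zig.trans (h2.right U' hU') h5
    have r2 : Zig W' (A ⋙ B ⋙ A' ⋙ U') A := r1.left A
    have r3 : Zig W' (A ⋙ B ⋙ A' ⋙ U') (S ⋙ A' ⋙ U') := h1.right (A' ⋙ U') hR
    have r4 : Zig W' A (S ⋙ A' ⋙ U') := r2.symm.trans r3
    have r5 : Zig W' ((B ⋙ U) ⋙ A) ((B ⋙ U) ⋙ S ⋙ A' ⋙ U') := r4.left (B ⋙ U)
    have r6 : Zig W' (B ⋙ (U ⋙ S) ⋙ A' ⋙ U') (B ⋙ 𝟭 C ⋙ A' ⋙ U') :=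
      (h4.right (A' ⋙ U') hR).left B
    exact r5.trans (Zig.trans r6 r1)

theorem fma : FMA := by
  intro T T' c c' K₁ K₂ L P₁ P₂
  refine ⟨(phi K₁).dm (phi_pc K₁),
    ((phi L).dm (phi_pc L)).comp ((shF (-1) T).dm (shF_pc (-1))), ?_⟩
  rw [DGF.comp_z0]
  exact inv_formal _ ((phi K₂).dm (phi_pc K₂)).z0 _ ((shF 1 T).dm (shF_pc 1)).z0 _
    ((shF 1 T').dm (shF_pc 1)).z0 ((shF (-1) T').dm (shF_pc (-1))).z0
    (TF.pres _ (phi_pq K₁)) (TF.pres _ (phi_pq K₂)) (TF.pres _ (phi_pq L))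
    (TF.pres _ (shF_pq (-1))) (TF.pres _ (shF_pq (-1))) (zig_pair P₁) (zig_pair P₂)
    (zig_sh T 1 (-1) (by norm_num)) (zig_sh T (-1) 1 (by norm_num))
    (zig_sh T' 1 (-1) (by norm_num))

end

end Vale.Agent.P286ET
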