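import Vale.Agent.P286ET.Ten

/-!
# DG functors between the categories of families: Cech complexes and shifts
-/

namespace Vale.Agent.P286ET

open CategoryTheory
open Vale.Agent.P286.H847 (GD)
open Vale.Agent.P286.H847.GD
open Vale.Agent.P286.H353

noncomputable section

variable {I J J' : Type} [SmallCategory I] [SmallCategory J] [SmallCategory J'] {T : TDat I}
  {T₀ : TDat J} {T₁ : TDat J'}

/-- A closed cochain of degree `0`. -/
structure Cl (X Y : TObj T) where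
  co : Co X Y 0
  cl : ∀ i x, co.f i ((X.M i).d x) = (Y.M i).d (co.f i x)

/-- The morphism of graded differential spaces. -/
def Cl.gd {X Y : TObj T} (u : Cl X Y) (i : I) : Hom (X.M i).toGD (Y.M i).toGD where
  f := u.co.f i
  comm := u.cl i
  deg m _ hx := u.co.deg' i (add_zero m).symm hx

theorem Cl.gd_f {X Y : TObj T} (u : Cl X Y) (i : I) : (u.gd i).f = u.co.f i := rfl

theorem Cl.e {X Y : TObj T} (u : Cl X Y) (i : I) (x : (X.M i).V) :
    u.co.f i (X.e i x) = Y.e i (u.co.f i x) := by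
  rw [u.co.isCo.e]
  simp

theorem Cart.of_qis {X Y : TObj T} (h : Cart X) (u : Cl X Y) (hu : ∀ i, Qis (u.gd i)) :
    Cart Y := fun {i j} a =>
  (h a).of_qis (u.gd i) (u.gd j) (hu i) (hu j) (u.co.isCo.lin i) (u.co.isCo.lin j)
    (u.co.isCo.rho a) (X.rho_d a) (X.rho_gr a) (Y.rho_d a) (Y.rho_gr a)

/-- A DG functor between categories of families. -/
structure TF (T₀ : TDat J) (T : TDat I) where
  obj : TObj T₀ → TObj T
  map : ∀ {X Y : TObj T₀} (p : ℤ), Co X Y p →ₗ[ℂ] Co (obj X) (obj Y) p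
  map_one : ∀ (X : TObj T₀) i x, (map 0 (Co.one X)).f i x = x
  map_comp : ∀ {X Y Z : TObj T₀} {p q r : ℤ} (h : p + q = r) (α : Co X Y p) (β : Co Y Z q) i x,
    (map r (Co.cmp h α β)).f i x = (map q β).f i ((map p α).f i x)
  map_dl : ∀ {X Y : TObj T₀} (p : ℤ) (α : Co X Y p) i x,
    (map (p + 1) (Co.dl rfl α)).f i x = ((obj Y).M i).d ((map p α).f i x) -
      (p.negOnePow : ℤ) • (map p α).f i (((obj X).M i).d x)

namespace TF

theorem map_dif (F : TF T₀ T) {X Y : TObj T₀} (p q : ℤ) (α : Co X Y p) :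
    F.map q (Co.dif p q α) = Co.dif p q (F.map p α) :=
  Co.eq_dif _ _ (fun h i x => by
    subst h
    rw [Co.dif_eq rfl]
    exact F.map_dl p α i x) (fun h => by rw [Co.dif_ne h, map_zero])

/-- The DG functor. -/
def dgf (F : TF T₀ T) : DGF (TA T₀) (TA T) where
  obj := F.obj
  map p := F.map p
  map_one X := Co.ext' (F.map_one X)
  map_comp h α β := Co.ext' (F.map_comp h α β)
  map_d p q α := F.map_dif p q α

/-- The composition. -/
def comp (F : TF T₁ T₀) (G : TF T₀ T) : TF T₁ T where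
  obj X := G.obj (F.obj X)
  map p := (G.map p).comp (F.map p)
  map_one X i x := by
    have h : F.map 0 (Co.one X) = Co.one (F.obj X) := Co.ext' (F.map_one X)
    rw [LinearMap.comp_apply, h, G.map_one]
  map_comp h α β i x := by
    have e : F.map _ (Co.cmp h α β) = Co.cmp h (F.map _ α) (F.map _ β) :=
      Co.ext' (F.map_comp h α β)
    rw [LinearMap.comp_apply, e, G.map_comp]
    rfl
  map_dl p α i x := by
    have e : F.map _ (Co.dl rfl α) = Co.dl rfl (F.map p α) := Co.ext' (F.map_dl p α)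
    rw [LinearMap.comp_apply, e, G.map_dl]
    rfl

/-- The identity. -/
def id (T : TDat I) : TF T T where
  obj X := X
  map _ := LinearMap.id
  map_one _ _ _ := rfl
  map_comp _ _ _ _ _ := rfl
  map_dl _ _ _ _ := rfl

/-- The value on a closed morphism. -/
def cl (F : TF T₀ T) {X Y : TObj T₀} (u : Cl X Y) : Cl (F.obj X) (F.obj Y) where
  co := F.map 0 u.co
  cl := (Co.dif_zero_iff _).1 (by
    rw [← F.map_dif, (Co.dif_zero_iff _).2 u.cl, map_zero])

/-- The functor preserves cartesian families. -/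
def PC (F : TF T₀ T) : Prop := ∀ X, Cart X → Cart (F.obj X)

/-- The functor preserves quasi-isomorphisms. -/
def PQ (F : TF T₀ T) : Prop :=
  ∀ {X Y : TObj T₀} (u : Cl X Y), (∀ i, Qis (u.gd i)) → ∀ i, Qis ((F.cl u).gd i)

/-- The DG functor on cartesian families. -/
def dm (F : TF T₀ T) (h : F.PC) : DGF (TM T₀) (TM T) := F.dgf.restr h

theorem PC.comp {F : TF T₁ T₀} {G : TF T₀ T} (h : F.PC) (h' : G.PC) : (F.comp G).PC :=
  fun X hX => h' _ (h X hX)

theorem pres {F : TF T₀ T} (h : F.PC) (hq : F.PQ) : Pres (WM T₀) (WM T) (F.dm h).z0 :=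
  fun _ _ a ha => hq ⟨zf a, (Co.dif_zero_iff _).1 (zf_cl a)⟩ ha

theorem dm_comp {F : TF T₁ T₀} {G : TF T₀ T} (h : F.PC) (h' : G.PC) :
    (F.dm h).z0 ⋙ (G.dm h').z0 = ((F.comp G).dm (h.comp h')).z0 := rfl

theorem dm_id : ((TF.id T).dm (fun _ h => h)).z0 = 𝟭 _ := rfl

end TF

/-- A natural transformation. -/
structure NT (F G : TF T₀ T) where
  app : ∀ X, Cl (F.obj X) (G.obj X)
  nat : ∀ {X Y : TObj T₀} (p : ℤ) (α : Co X Y p) i x,
    (app Y).co.f i ((F.map p α).f i x) = (G.map p α).f i ((app X).co.f i x)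

theorem NT.natW {F G : TF T₀ T} (η : NT F G) (h : F.PC) (h' : G.PC)
    (hq : ∀ X, Cart X → ∀ i, Qis ((η.app X).gd i)) :
    NatW (WM T) (F.dm h).z0 (G.dm h').z0 :=
  ⟨natT (Φ := F.dm h) (Ψ := G.dm h') (fun X => (η.app X.1).co)
    (fun X => (Co.dif_zero_iff _).2 (η.app X.1).cl)
    (fun a _ => Co.ext' (η.nat 0 a)), fun X => hq _ (ob X).2⟩

/-! ### The shift -/

/-- The shift. -/
def shO (s : ℤ) (X : TObj T) : TObj T where
  M i := rsh s (X.M i)
  D := X.D
  D_smul := X.D_smul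
  D_d i x := by
    change -((X.M i).d (X.D i x)) = X.D i (-((X.M i).d x))
    rw [X.D_d, map_neg]
  D_gr i m := X.D_gr i (m + s)
  e i := - X.e i
  e_smul i r x := by
    change -(X.e i (r • x)) = r • -(X.e i x)
    rw [X.e_smul, smul_neg]
  e_d i x := by
    change -((X.M i).d (-(X.e i x))) = -(-(X.e i (-((X.M i).d x))))
    rw [map_neg, map_neg, X.e_d]
  e_gr i m x hx := by
    change -(X.e i x) ∈ (X.M i).gr (m - 1 + s)
    rw [show m - 1 + s = m + s - 1 by ring]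
    exact neg_mem (X.e_gr i _ x hx)
  e_e i x := by
    change -(X.e i (-(X.e i x))) = 0
    rw [map_neg, X.e_e, neg_zero, neg_zero]
  D_e i x := by
    change X.D i (-(X.e i x)) = -(X.e i (X.D i x))
    rw [map_neg, X.D_e]
  w := X.w
  w_smul := X.w_smul
  w_d i x := by
    change -((X.M i).d (X.w i x)) = X.w i (-((X.M i).d x))
    rw [X.w_d, map_neg]
  w_gr i m := X.w_gr i (m + s)
  w_w := X.w_w
  w_D := X.w_D
  w_e i x := by
    change X.w i (-(X.e i x)) = -(-(X.e i (X.w i x)))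
    rw [map_neg, X.w_e]
  rho := X.rho
  rho_id := X.rho_id
  rho_comp := X.rho_comp
  rho_smul := X.rho_smul
  rho_d {i j} a x := by
    change X.rho a (-((X.M i).d x)) = -((X.M j).d (X.rho a x))
    rw [map_neg, X.rho_d]
  rho_gr a m := X.rho_gr a (m + s)
  rho_D := X.rho_D
  rho_e {i j} a x := by
    change X.rho a (-(X.e i x)) = -(X.e j (X.rho a x))
    rw [map_neg, X.rho_e]
  rho_w := X.rho_w

/-- A multiple of a cochain, as a cochain between the shifts. -/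
def shCo (s : ℤ) {X Y : TObj T} {p : ℤ} (α : Co X Y p) : Co (shO s X) (shO s Y) p :=
  Co.mk (fun i => α.f i)
    ⟨fun i m x hx => α.deg' i (m := m + s) (k := m + p + s) (by ring) hx, α.isCo.lin, α.isCo.D,
      fun i (x : (X.M i).V) => by
        change α.f i (-(X.e i x)) = (p.negOnePow : ℤ) • -(Y.e i (α.f i x))
        rw [map_neg, α.isCo.e, smul_neg], α.isCo.w, α.isCo.rho⟩

/-- The shift functor. -/
def shF (s : ℤ) (T : TDat I) : TF T T where
  obj := shO s
  map p :=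
    { toFun := fun α => shCo s (((p.negOnePow : ℤ) : ℂ) • α)
      map_add' := fun α β => by rw [smul_add]; rfl
      map_smul' := fun c α => by rw [smul_comm]; rfl }
  map_one X i (x : (X.M i).V) := by
    change (((0 : ℤ).negOnePow : ℤ) : ℂ) • x = x
    simp
  map_comp {X Y Z p q r} h α β i (x : (X.M i).V) := by
    change ((r.negOnePow : ℤ) : ℂ) • β.f i (α.f i x) =
      ((q.negOnePow : ℤ) : ℂ) • β.f i (((p.negOnePow : ℤ) : ℂ) • α.f i x)
    rw [map_smul, smul_smul, ← h, nop_add, Int.cast_mul, mul_comm]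
  map_dl {X Y} p α i (x : (X.M i).V) := by
    change (((p + 1).negOnePow : ℤ) : ℂ) •
        ((Y.M i).d (α.f i x) - (p.negOnePow : ℤ) • α.f i ((X.M i).d x)) =
      -((Y.M i).d (((p.negOnePow : ℤ) : ℂ) • α.f i x)) -
        (p.negOnePow : ℤ) • ((p.negOnePow : ℤ) : ℂ) • α.f i (-((X.M i).d x))
    rw [nop_succ, Int.cast_neg, Int.cast_smul_eq_zsmul, Int.cast_smul_eq_zsmul, neg_smul,
      Int.cast_smul_eq_zsmul, map_zsmul, map_neg, smul_sub, smul_neg, smul_neg]
    abel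

theorem shF_f (s : ℤ) {X Y : TObj T} {p : ℤ} (α : Co X Y p) (i : I) (x : (X.M i).V) :
    ((shF s T).map p α).f i x = (p.negOnePow : ℤ) • α.f i x :=
  Int.cast_smul_eq_zsmul ℂ _ _

theorem shF_pq (s : ℤ) : (shF s T).PQ := fun u hu i =>
  qis_sh s (hu i) _ (fun x => (shF_f s u.co i x).trans (by
    rw [Int.negOnePow_zero, Units.val_one, one_smul]
    rfl))

theorem locQ_sh {A B : Type} [CommRing A] [CommRing B] [Algebra ℂ A] [Algebra ℂ B] {M : RG A}
    {N : RG B} {ρ : M.V →ₗ[ℂ] N.V} {a : A} {b : B} (s : ℤ) (h : LocQ M N ρ a b) :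
    LocQ (rsh s M) (rsh s N) ρ a b := by
  intro m
  have e0 : m - 1 + s = m + s - 1 := by ring
  refine ⟨?_, ?_⟩
  · rintro x hx hd ⟨y, hy, e⟩
    have hy' : y ∈ N.gr (m - 1 + s) := hy
    obtain ⟨k, x', hx', e'⟩ := (h (m + s)).1 x hx (neg_eq_zero.1 hd)
      ⟨-y, neg_mem (e0 ▸ hy'), by rw [map_neg]; exact e⟩
    refine ⟨k, -x', ?_, ?_⟩
    · change -x' ∈ M.gr (m - 1 + s)
      rw [e0]
      exact neg_mem hx'
    · change -(M.d (-x')) = _
      rw [map_neg, neg_neg, e']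
  · intro y hy hd
    obtain ⟨k, x, hx, hdx, y', hy', e⟩ := (h (m + s)).2 y hy (neg_eq_zero.1 hd)
    refine ⟨k, x, hx, ?_, -y', ?_, ?_⟩
    · change -(M.d x) = 0
      rw [hdx, neg_zero]
    · change -y' ∈ N.gr (m - 1 + s)
      rw [e0]
      exact neg_mem hy'
    · change -(N.d (-y')) = _
      rw [map_neg, neg_neg, e]

theorem shF_pc (s : ℤ) : (shF s T).PC := fun _ hX _ _ a => locQ_sh s (hX a)

/-- The comparison of the double shift with the identity. -/
def shsh (s t : ℤ) (h : s + t = 0) (T : TDat I) : NT ((shF s T).comp (shF t T)) (TF.id T) where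
  app X :=
    { co := Co.mk (fun _ => LinearMap.id)
        ⟨fun i m x hx => by
          have hx' : x ∈ (X.M i).gr (m + t + s) := hx
          rw [show m + t + s = m + 0 by omega] at hx'
          exact hx', fun _ _ _ => rfl, fun _ _ => rfl,
          fun i (x : (X.M i).V) => by
            change -(-(X.e i x)) = ((0 : ℤ).negOnePow : ℤ) • X.e i x
            simp, fun _ _ => rfl, fun _ _ => rfl⟩
      cl := fun i x => neg_neg ((X.M i).d x) }
  nat {X Y} p α i (x : (X.M i).V) := by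
    change ((p.negOnePow : ℤ) : ℂ) • ((p.negOnePow : ℤ) : ℂ) • α.f i x = α.f i x
    rw [smul_smul, ← Int.cast_mul, nop_sq, Int.cast_one, one_smul]

theorem shsh_qis (s t : ℤ) (h : s + t = 0) (X : TObj T) (i : I) :
    Qis (((shsh s t h T).app X).gd i) :=
  qis_of_inv _ ⟨LinearMap.id, fun x => (neg_neg ((X.M i).d x)).symm, fun m x hx => by
    change x ∈ (X.M i).gr (m + t + s)
    rw [show m + t + s = m by omega]
    exact hx⟩ (fun _ => rfl) (fun _ => rfl)

/-! ### The Cech complex -/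

section Cech

variable {X Y Z X' Y' Z' : TObj T}

theorem del_lin (u : Cl X Z) (v : Cl Y Z) (i : I) (r : T.R i) (x : (X.M i).V × (Y.M i).V) :
    (gdel (u.gd i) (v.gd i)).f (r • x) = r • (gdel (u.gd i) (v.gd i)).f x := by
  change u.co.f i (r • x.1) - v.co.f i (r • x.2) = r • (u.co.f i x.1 - v.co.f i x.2)
  rw [u.co.isCo.lin, v.co.isCo.lin, smul_sub]

/-- The underlying complex. -/
abbrev ceM (u : Cl X Z) (v : Cl Y Z) (i : I) : RG (T.R i) :=
  rcone (M := rprod (X.M i) (Y.M i)) (N := Z.M i) (gdel (u.gd i) (v.gd i)) (del_lin u v i)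

theorem ceM_d (u : Cl X Z) (v : Cl Y Z) (i : I) (x : (Z.M i).V × (X.M i).V × (Y.M i).V) :
    (ceM u v i).d x = ((Z.M i).d x.1 + (u.co.f i x.2.1 - v.co.f i x.2.2),
      -((X.M i).d x.2.1), -((Y.M i).d x.2.2)) := rfl

theorem ext3 {α β γ : Type} {x y : α × β × γ} (h1 : x.1 = y.1) (h2 : x.2.1 = y.2.1)
    (h3 : x.2.2 = y.2.2) : x = y := Prod.ext h1 (Prod.ext h2 h3)

/-- The total complex of the Cech complex, shifted by one. -/
def ceO (u : Cl X Z) (v : Cl Y Z) : TObj T where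
  M i := ceM u v i
  D i := (Z.D i).prodMap ((X.D i).prodMap (Y.D i))
  D_smul i r x := ext3 (Z.D_smul i r x.1) (X.D_smul i r x.2.1) (Y.D_smul i r x.2.2)
  D_d i x := by
    rw [ceM_d, ceM_d]
    refine ext3 ?_ ?_ ?_ <;>
      simp [Z.D_d, X.D_d, Y.D_d, u.co.isCo.D, v.co.isCo.D]
  D_gr i m x hx := ⟨Z.D_gr i _ _ hx.1, X.D_gr i _ _ hx.2.1, Y.D_gr i _ _ hx.2.2⟩
  e i := (Z.e i).prodMap ((-X.e i).prodMap (-Y.e i))
  e_smul i r x := by
    refine ext3 ?_ ?_ ?_ <;> simp [Z.e_smul, X.e_smul, Y.e_smul]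
  e_d i x := by
    rw [ceM_d, ceM_d]
    refine ext3 ?_ ?_ ?_
    · simp only [LinearMap.prodMap_apply, LinearMap.neg_apply,
        map_neg, map_add, map_sub, Z.e_d, u.e, v.e, Prod.fst_neg]
      abel
    · simp [X.e_d]
    · simp [Y.e_d]
  e_gr i m x hx := by
    refine ⟨Z.e_gr i _ _ hx.1, neg_mem ?_, neg_mem ?_⟩
    · rw [show m - 1 + 1 = m + 1 - 1 by ring]
      exact X.e_gr i _ _ hx.2.1
    · rw [show m - 1 + 1 = m + 1 - 1 by ring]
      exact Y.e_gr i _ _ hx.2.2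
  e_e i x := by
    refine ext3 ?_ ?_ ?_ <;> simp [Z.e_e, X.e_e, Y.e_e]
  D_e i x := by
    refine ext3 ?_ ?_ ?_ <;> simp [Z.D_e, X.D_e, Y.D_e]
  w i := (Z.w i).prodMap ((X.w i).prodMap (Y.w i))
  w_smul i r x := ext3 (Z.w_smul i r x.1) (X.w_smul i r x.2.1) (Y.w_smul i r x.2.2)
  w_d i x := by
    rw [ceM_d, ceM_d]
    refine ext3 ?_ ?_ ?_ <;>
      simp [Z.w_d, X.w_d, Y.w_d, u.co.isCo.w, v.co.isCo.w]
  w_gr i m x hx := ⟨Z.w_gr i _ _ hx.1, X.w_gr i _ _ hx.2.1, Y.w_gr i _ _ hx.2.2⟩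
  w_w i x := ext3 (Z.w_w i x.1) (X.w_w i x.2.1) (Y.w_w i x.2.2)
  w_D i x := ext3 (Z.w_D i x.1) (X.w_D i x.2.1) (Y.w_D i x.2.2)
  w_e i x := by
    refine ext3 ?_ ?_ ?_ <;> simp [Z.w_e, X.w_e, Y.w_e]
  rho a := (Z.rho a).prodMap ((X.rho a).prodMap (Y.rho a))
  rho_id i x := ext3 (Z.rho_id i x.1) (X.rho_id i x.2.1) (Y.rho_id i x.2.2)
  rho_comp a b x := ext3 (Z.rho_comp a b x.1) (X.rho_comp a b x.2.1) (Y.rho_comp a b x.2.2)
  rho_smul a r x := ext3 (Z.rho_smul a r x.1) (X.rho_smul a r x.2.1) (Y.rho_smul a r x.2.2)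
  rho_d a x := by
    rw [ceM_d, ceM_d]
    refine ext3 ?_ ?_ ?_ <;>
      simp [Z.rho_d, X.rho_d, Y.rho_d, u.co.isCo.rho, v.co.isCo.rho]
  rho_gr a m x hx := ⟨Z.rho_gr a _ _ hx.1, X.rho_gr a _ _ hx.2.1, Y.rho_gr a _ _ hx.2.2⟩
  rho_D a x := ext3 (Z.rho_D a x.1) (X.rho_D a x.2.1) (Y.rho_D a x.2.2)
  rho_e a x := by
    refine ext3 ?_ ?_ ?_ <;> simp [Z.rho_e, X.rho_e, Y.rho_e]
  rho_w a x := ext3 (Z.rho_w a x.1) (X.rho_w a x.2.1) (Y.rho_w a x.2.2)

/-- The map on the Cech complexes. -/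
def ceL {p : ℤ} (α : Co X X' p) (β : Co Y Y' p) (γ : Co Z Z' p) (i : I) :
    ((Z.M i).V × (X.M i).V × (Y.M i).V) →ₗ[ℂ] ((Z'.M i).V × (X'.M i).V × (Y'.M i).V) :=
  (γ.f i).prodMap (((p.negOnePow : ℤ) • α.f i).prodMap ((p.negOnePow : ℤ) • β.f i))

theorem ceL_apply {p : ℤ} (α : Co X X' p) (β : Co Y Y' p) (γ : Co Z Z' p) (i : I)
    (x : (Z.M i).V × (X.M i).V × (Y.M i).V) :
    ceL α β γ i x = (γ.f i x.1, (p.negOnePow : ℤ) • α.f i x.2.1,
      (p.negOnePow : ℤ) • β.f i x.2.2) := rfl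

/-- The cochain between the Cech complexes. -/
def ceCo (u : Cl X Z) (v : Cl Y Z) (u' : Cl X' Z') (v' : Cl Y' Z') {p : ℤ} (α : Co X X' p)
    (β : Co Y Y' p) (γ : Co Z Z' p) : Co (ceO u v) (ceO u' v') p :=
  Co.mk (fun i => ceL α β γ i)
    ⟨fun i m x hx => ⟨γ.isCo.deg i _ _ hx.1,
        zsmul_mem (α.deg' i (m := m + 1) (by ring) hx.2.1) _,
        zsmul_mem (β.deg' i (m := m + 1) (by ring) hx.2.2) _⟩,
      fun i r x => ext3 (γ.isCo.lin i r x.1)
        ((congrArg _ (α.isCo.lin i r x.2.1)).trans (smul_comm (p.negOnePow : ℤ) r _))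
        ((congrArg _ (β.isCo.lin i r x.2.2)).trans (smul_comm (p.negOnePow : ℤ) r _)),
      fun i x => ext3 (γ.isCo.D i x.1)
        ((congrArg _ (α.isCo.D i x.2.1)).trans (map_zsmul _ _ _).symm)
        ((congrArg _ (β.isCo.D i x.2.2)).trans (map_zsmul _ _ _).symm),
      fun i (x : (Z.M i).V × (X.M i).V × (Y.M i).V) => by
        refine ext3 (γ.isCo.e i x.1) ?_ ?_
        · change (p.negOnePow : ℤ) • α.f i (-(X.e i x.2.1)) =
            (p.negOnePow : ℤ) • -(X'.e i ((p.negOnePow : ℤ) • α.f i x.2.1))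
          rw [map_neg, α.isCo.e, map_zsmul]
        · change (p.negOnePow : ℤ) • β.f i (-(Y.e i x.2.2)) =
            (p.negOnePow : ℤ) • -(Y'.e i ((p.negOnePow : ℤ) • β.f i x.2.2))
          rw [map_neg, β.isCo.e, map_zsmul],
      fun i x => ext3 (γ.isCo.w i x.1)
        ((congrArg _ (α.isCo.w i x.2.1)).trans (map_zsmul _ _ _).symm)
        ((congrArg _ (β.isCo.w i x.2.2)).trans (map_zsmul _ _ _).symm),
      fun a x => ext3 (γ.isCo.rho a x.1)
        ((congrArg _ (α.isCo.rho a x.2.1)).trans (map_zsmul _ _ _).symm)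
        ((congrArg _ (β.isCo.rho a x.2.2)).trans (map_zsmul _ _ _).symm)⟩

end Cech

/-- The elements of the Cech complex. -/
abbrev ceV (Fa Fb Fn : TF T₀ T) (X : TObj T₀) (i : I) : Type :=
  ((Fn.obj X).M i).V × ((Fa.obj X).M i).V × ((Fb.obj X).M i).V

/-- The Cech complex of three functors. -/
def ceF {Fa Fb Fn : TF T₀ T} (u : NT Fa Fn) (v : NT Fb Fn) : TF T₀ T where
  obj X := ceO (u.app X) (v.app X)
  map {X Y} p :=
    { toFun := fun α => ceCo (u.app X) (v.app X) (u.app Y) (v.app Y) (Fa.map p α) (Fb.map p α)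
        (Fn.map p α)
      map_add' := fun α β => Co.ext' fun i (x : ceV Fa Fb Fn X i) => by
        change ceL (Fa.map p (α + β)) (Fb.map p (α + β)) (Fn.map p (α + β)) i x =
          ceL (Fa.map p α) (Fb.map p α) (Fn.map p α) i x +
            ceL (Fa.map p β) (Fb.map p β) (Fn.map p β) i x
        simp only [ceL_apply, map_add, Co.add_f, LinearMap.add_apply, smul_add, Prod.mk_add_mk]
      map_smul' := fun c α => Co.ext' fun i (x : ceV Fa Fb Fn X i) => by
        change ceL (Fa.map p (c • α)) (Fb.map p (c • α)) (Fn.map p (c • α)) i x =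
          c • ceL (Fa.map p α) (Fb.map p α) (Fn.map p α) i x
        simp only [ceL_apply, map_smul, Co.smul_f, LinearMap.smul_apply, Prod.smul_mk]
        rw [smul_comm c, smul_comm c] }
  map_one X i (x : ceV Fa Fb Fn X i) := by
    change ceL (Fa.map 0 (Co.one X)) (Fb.map 0 (Co.one X)) (Fn.map 0 (Co.one X)) i x = x
    simp only [ceL_apply, TF.map_one, Int.negOnePow_zero, Units.val_one, one_smul]
  map_comp {X Y Z p q r} h α β i (x : ceV Fa Fb Fn X i) := by
    change ceL (Fa.map r (Co.cmp h α β)) (Fb.map r (Co.cmp h α β)) (Fn.map r (Co.cmp h α β)) i x =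
      ceL (Fa.map q β) (Fb.map q β) (Fn.map q β) i
        (ceL (Fa.map p α) (Fb.map p α) (Fn.map p α) i x)
    subst h
    simp only [ceL_apply, TF.map_comp, map_zsmul, smul_smul, nop_add, mul_comm]
  map_dl {X Y} p α i (x : ceV Fa Fb Fn X i) := by
    change ceL (Fa.map (p + 1) (Co.dl rfl α)) (Fb.map (p + 1) (Co.dl rfl α))
        (Fn.map (p + 1) (Co.dl rfl α)) i x =
      (ceM (u.app Y) (v.app Y) i).d (ceL (Fa.map p α) (Fb.map p α) (Fn.map p α) i x) -
      (p.negOnePow : ℤ) • ceL (Fa.map p α) (Fb.map p α) (Fn.map p α) i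
        ((ceM (u.app X) (v.app X) i).d x)
    rw [ceM_d, ceM_d]
    simp only [ceL_apply, TF.map_dl, map_zsmul, nop_succ, map_add, map_sub, map_neg,
      u.nat, v.nat, Prod.smul_mk, Prod.mk_sub_mk, smul_add, smul_sub, smul_neg, neg_smul]
    refine ext3 ?_ rfl rfl
    dsimp only
    abel

theorem ceF_f {Fa Fb Fn : TF T₀ T} (u : NT Fa Fn) (v : NT Fb Fn) {X Y : TObj T₀} {p : ℤ}
    (α : Co X Y p) (i : I) :
    ((ceF u v).map p α).f i = ceL (Fa.map p α) (Fb.map p α) (Fn.map p α) i := rfl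

theorem ceF_pq {Fa Fb Fn : TF T₀ T} (u : NT Fa Fn) (v : NT Fb Fn) (ha : Fa.PQ) (hb : Fb.PQ)
    (hn : Fn.PQ) : (ceF u v).PQ := by
  intro X Y f hf i
  let F : Hom (gprod ((Fa.obj X).M i).toGD ((Fb.obj X).M i).toGD)
      (gprod ((Fa.obj Y).M i).toGD ((Fb.obj Y).M i).toGD) :=
    ⟨((Fa.cl f).gd i).f.prodMap ((Fb.cl f).gd i).f,
      fun x => Prod.ext (((Fa.cl f).gd i).comm x.1) (((Fb.cl f).gd i).comm x.2),
      fun m x hx => ⟨((Fa.cl f).gd i).deg m _ hx.1, ((Fb.cl f).gd i).deg m _ hx.2⟩⟩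
  refine qis_cone (u := gdel ((u.app X).gd i) ((v.app X).gd i))
    (u' := gdel ((u.app Y).gd i) ((v.app Y).gd i)) (f := F) (g := (Fn.cl f).gd i) (fun x => ?_)
    (qis_prod (ha f hf i) (hb f hf i) F (fun _ => rfl)) (hn f hf i) _ (fun x => ?_)
  · change (Fn.map 0 f.co).f i ((u.app X).co.f i x.1 - (v.app X).co.f i x.2) =
      (u.app Y).co.f i ((Fa.map 0 f.co).f i x.1) - (v.app Y).co.f i ((Fb.map 0 f.co).f i x.2)
    rw [map_sub, u.nat, v.nat]
  · change ceL (Fa.map 0 f.co) (Fb.map 0 f.co) (Fn.map 0 f.co) i x = _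
    rw [ceL_apply]
    simp only [Int.negOnePow_zero, Units.val_one, one_smul]
    rfl

end

end Vale.Agent.P286ET
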