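import Vale.Agent.P286ET.Defs

/-!
# Graded differential spaces: products, cones, shifts
-/

namespace Vale.Agent.P286ET

open Vale.Agent.P286.H847 (GD)
open Vale.Agent.P286.H847.GD

noncomputable section

/-- The product. -/
abbrev gprod (M N : GD) : GD where
  V := M.V × N.V
  d := M.d.prodMap N.d
  dd x := Prod.ext (M.dd x.1) (N.dd x.2)
  gr m := (M.gr m).prod (N.gr m)
  dgr m _ hx := ⟨M.dgr m _ hx.1, N.dgr m _ hx.2⟩

/-- The difference of two maps. -/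
def gdel {M N P : GD} (u : Hom M P) (v : Hom N P) : Hom (gprod M N) P where
  f := u.f.comp (LinearMap.fst ℂ M.V N.V) - v.f.comp (LinearMap.snd ℂ M.V N.V)
  comm x := by
    change u.f (M.d x.1) - v.f (N.d x.2) = P.d (u.f x.1 - v.f x.2)
    rw [map_sub, u.comm, v.comm]
  deg m x hx := sub_mem (u.deg m _ hx.1) (v.deg m _ hx.2)

theorem gdel_f {M N P : GD} (u : Hom M P) (v : Hom N P) (x : M.V × N.V) :
    (gdel u v).f x = u.f x.1 - v.f x.2 := rfl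

/-- The total complex of the Cech complex, shifted by one. -/
abbrev gce {M N P : GD} (u : Hom M P) (v : Hom N P) : GD := Cone (gdel u v)

/-- The shift. -/
abbrev gsh (s : ℤ) (M : GD) : GD where
  V := M.V
  d := - M.d
  dd x := by simp [M.dd]
  gr m := M.gr (m + s)
  dgr m x hx := neg_mem (M.dgr' (by ring) hx)

theorem qis_congr {M N : GD} {u v : Hom M N} (h : ∀ x, u.f x = v.f x) (hu : Qis u) : Qis v := by
  intro m
  refine ⟨fun x hx hd ⟨y, hy, e⟩ => (hu m).1 x hx hd ⟨y, hy, by rw [e, h]⟩, fun y hy hd => ?_⟩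
  obtain ⟨x, hx, hdx, y', hy', e⟩ := (hu m).2 y hy hd
  exact ⟨x, hx, hdx, y', hy', by rw [e, h]⟩

theorem qis_prod {M N M' N' : GD} {f : Hom M M'} {g : Hom N N'} (hf : Qis f) (hg : Qis g)
    (F : Hom (gprod M N) (gprod M' N')) (hF : ∀ x, F.f x = (f.f x.1, g.f x.2)) : Qis F := by
  intro m
  refine ⟨?_, ?_⟩
  · rintro x hx hd ⟨y, hy, e⟩
    rw [hF] at e
    obtain ⟨a, ha, ea⟩ := (hf m).1 x.1 hx.1 (congrArg Prod.fst hd) ⟨y.1, hy.1, congrArg Prod.fst e⟩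
    obtain ⟨b, hb, eb⟩ := (hg m).1 x.2 hx.2 (congrArg Prod.snd hd) ⟨y.2, hy.2, congrArg Prod.snd e⟩
    exact ⟨(a, b), ⟨ha, hb⟩, Prod.ext ea eb⟩
  · intro y hy hd
    obtain ⟨a, ha, hda, a', ha', ea⟩ := (hf m).2 y.1 hy.1 (congrArg Prod.fst hd)
    obtain ⟨b, hb, hdb, b', hb', eb⟩ := (hg m).2 y.2 hy.2 (congrArg Prod.snd hd)
    refine ⟨(a, b), ⟨ha, hb⟩, Prod.ext hda hdb, (a', b'), ⟨ha', hb'⟩, ?_⟩
    rw [hF]
    exact Prod.ext ea eb

/-- The five lemma for cones. -/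
theorem qis_cone {M N M' N' : GD} {u : Hom M N} {u' : Hom M' N'} {f : Hom M M'} {g : Hom N N'}
    (h : ∀ x, g.f (u.f x) = u'.f (f.f x)) (hf : Qis f) (hg : Qis g)
    (F : Hom (Cone u) (Cone u')) (hF : ∀ x, F.f x = (g.f x.1, f.f x.2)) : Qis F := by
  intro k
  refine ⟨?_, ?_⟩
  · rintro ⟨n, m⟩ ⟨hn, hm⟩ hd ⟨⟨n', m'⟩, ⟨hn', hm'⟩, e⟩
    rw [hF, cone_d] at e
    rw [cone_d] at hd
    have d1 : N.d n + u.f m = 0 := congrArg Prod.fst hd
    have d2 : M.d m = 0 := neg_eq_zero.1 (congrArg Prod.snd hd)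
    have e1 : N'.d n' + u'.f m' = g.f n := congrArg Prod.fst e
    have e2 : -(M'.d m') = f.f m := congrArg Prod.snd e
    have hn0 : n ∈ N.gr k := hn
    have hm0 : m ∈ M.gr (k + 1) := hm
    have hn1 : n' ∈ N'.gr (k - 1) := hn'
    have hm1 : m' ∈ M'.gr k := by simpa using hm'
    obtain ⟨m1, h1, f1⟩ := (hf (k + 1)).1 m hm0 d2 ⟨-m', by simpa using hm1, by rw [map_neg, e2]⟩
    have h1' : m1 ∈ M.gr k := by simpa using h1
    obtain ⟨m2, h2, hd2, m'', h2', f2⟩ := (hf k).2 (m' + f.f m1) (add_mem hm1 (f.deg _ _ h1'))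
      (by rw [map_add, ← f.comm, f1, ← e2, add_neg_cancel])
    obtain ⟨n2, h3, f3⟩ := (hg k).1 (n + u.f m1 - u.f m2)
      (sub_mem (add_mem hn0 (u.deg _ _ h1')) (u.deg _ _ h2))
      (by rw [map_sub, map_add, ← u.comm, ← u.comm, f1, hd2, map_zero, sub_zero, d1])
      ⟨n' + u'.f m'', add_mem hn1 (u'.deg _ _ h2'), by
        rw [map_add, ← u'.comm, f2, map_sub, map_add, map_sub, map_add, h, h, ← e1]
        abel⟩
    refine ⟨((n2, m2 - m1) : N.V × M.V), ⟨h3, by simpa using sub_mem h2 h1'⟩, ?_⟩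
    rw [cone_d]
    refine Prod.ext ?_ ?_
    · change N.d n2 + u.f (m2 - m1) = n
      rw [f3, map_sub]
      abel
    · change -(M.d (m2 - m1)) = m
      rw [map_sub, hd2, f1]
      abel
  · rintro ⟨n', m'⟩ ⟨hn', hm'⟩ hd
    rw [cone_d] at hd
    have d1 : N'.d n' + u'.f m' = 0 := congrArg Prod.fst hd
    have d2 : M'.d m' = 0 := neg_eq_zero.1 (congrArg Prod.snd hd)
    have hn0 : n' ∈ N'.gr k := hn'
    have hm0 : m' ∈ M'.gr (k + 1) := hm'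
    obtain ⟨m, hm, hdm, m'', h2, f2⟩ := (hf (k + 1)).2 m' hm0 d2
    have h2' : m'' ∈ M'.gr k := by simpa using h2
    have d1' : N'.d n' = - u'.f m' := eq_neg_of_add_eq_zero_left d1
    obtain ⟨n0, h3, f3⟩ := (hg (k + 1)).1 (u.f m) (u.deg _ _ hm) (by rw [← u.comm, hdm, map_zero])
      ⟨-(n' + u'.f m''), by simpa using neg_mem (add_mem hn0 (u'.deg _ _ h2')), by
        rw [map_neg, map_add, ← u'.comm, f2, map_sub, h, d1']
        abel⟩
    have h3' : n0 ∈ N.gr k := by simpa using h3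
    obtain ⟨n1, h4, hd4, n'', h5, f5⟩ := (hg k).2 (n' + g.f n0 + u'.f m'')
      (add_mem (add_mem hn0 (g.deg _ _ h3')) (u'.deg _ _ h2'))
      (by
        rw [map_add, map_add, ← g.comm, ← u'.comm, f3, f2, h, map_sub, d1']
        abel)
    refine ⟨((n1 - n0, m) : N.V × M.V), ⟨sub_mem h4 h3', hm⟩, ?_,
      ((n'', -m'') : N'.V × M'.V), ⟨h5, by simpa using h2'⟩, ?_⟩
    · rw [cone_d]
      refine Prod.ext ?_ ?_
      · change N.d (n1 - n0) + u.f m = 0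
        rw [map_sub, hd4, f3]
        abel
      · change -(M.d m) = 0
        rw [hdm, neg_zero]
    · rw [hF, cone_d]
      refine Prod.ext ?_ ?_
      · change N'.d n'' + u'.f (-m'') = n' - g.f (n1 - n0)
        rw [f5, map_neg, map_sub]
        abel
      · change -(M'.d (-m'')) = m' - f.f m
        rw [map_neg, neg_neg, f2]

/-- The sequence is short exact in every degree. -/
structure GSes {X Y Z : GD} (u : Hom X Y) (v : Hom Y Z) : Prop where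
  zero : ∀ x, v.f (u.f x) = 0
  inj : ∀ m, ∀ x ∈ X.gr m, u.f x = 0 → x = 0
  mid : ∀ m, ∀ y ∈ Y.gr m, v.f y = 0 → ∃ x ∈ X.gr m, y = u.f x
  surj : ∀ m, ∀ z ∈ Z.gr m, ∃ y ∈ Y.gr m, v.f y = z

theorem GSes.qis_quot {X Y Z : GD} {u : Hom X Y} {v : Hom Y Z} (h : GSes u v)
    (F : Hom (Cone u) Z) (hF : ∀ x, F.f x = v.f x.1) : Qis F := by
  intro k
  refine ⟨?_, ?_⟩
  · rintro ⟨y, x⟩ ⟨hy, hx⟩ hd ⟨z, hz, e⟩
    rw [hF] at e
    rw [cone_d] at hd
    have d1 : Y.d y + u.f x = 0 := congrArg Prod.fst hd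
    have hy0 : y ∈ Y.gr k := hy
    have hx0 : x ∈ X.gr (k + 1) := hx
    obtain ⟨y1, h1, rfl⟩ := h.surj _ z hz
    obtain ⟨x1, h2, e2⟩ := h.mid k (y - Y.d y1) (sub_mem hy0 (Y.dgr' (by ring) h1))
      (by rw [map_sub, v.comm, e, sub_self])
    have e3 : X.d x1 + x = 0 := h.inj (k + 1) _ (add_mem (X.dgr _ _ h2) hx0) (by
      rw [map_add, u.comm, ← e2, map_sub, Y.dd, sub_zero, d1])
    refine ⟨((y1, x1) : Y.V × X.V), ⟨h1, by simpa using h2⟩, ?_⟩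
    rw [cone_d]
    refine Prod.ext ?_ ?_
    · change Y.d y1 + u.f x1 = y
      rw [← e2]
      abel
    · change -(X.d x1) = x
      exact neg_eq_of_add_eq_zero_right e3
  · intro z hz hd
    obtain ⟨y, hy, rfl⟩ := h.surj _ z hz
    obtain ⟨x, hx, e⟩ := h.mid (k + 1) (Y.d y) (Y.dgr _ _ hy) (by rw [v.comm, hd])
    have e3 : X.d x = 0 := h.inj _ _ (X.dgr _ _ hx) (by rw [u.comm, ← e, Y.dd])
    refine ⟨((y, -x) : Y.V × X.V), ⟨hy, neg_mem hx⟩, ?_, 0, zero_mem _, ?_⟩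
    · rw [cone_d]
      refine Prod.ext ?_ ?_
      · change Y.d y + u.f (-x) = 0
        rw [map_neg, e, add_neg_cancel]
      · change -(X.d (-x)) = 0
        rw [map_neg, e3, neg_zero, neg_zero]
    · rw [hF, map_zero, sub_self]

theorem GSes.qis_sub {X Y Z : GD} {u : Hom X Y} {v : Hom Y Z} (h : GSes u v)
    (F : Hom (gsh 1 X) (Cone v)) (hF : ∀ x, F.f x = (0, u.f x)) : Qis F := by
  intro k
  refine ⟨?_, ?_⟩
  · rintro x hx hd ⟨⟨z, y⟩, ⟨hz, hy⟩, e⟩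
    rw [hF, cone_d] at e
    have e1 : Z.d z + v.f y = 0 := congrArg Prod.fst e
    have e2 : -(Y.d y) = u.f x := congrArg Prod.snd e
    have hx0 : x ∈ X.gr (k + 1) := hx
    have hy0 : y ∈ Y.gr k := by simpa using hy
    obtain ⟨y1, h1, rfl⟩ := h.surj _ z hz
    obtain ⟨x1, h2, e3⟩ := h.mid k (Y.d y1 + y) (add_mem (Y.dgr' (by ring) h1) hy0)
      (by rw [map_add, v.comm, e1])
    have e4 : X.d x1 + x = 0 := h.inj (k + 1) _ (add_mem (X.dgr _ _ h2) hx0) (by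
      rw [map_add, u.comm, ← e3, map_add, Y.dd, zero_add, ← e2, add_neg_cancel])
    refine ⟨x1, ?_, neg_eq_of_add_eq_zero_right e4⟩
    change x1 ∈ X.gr (k - 1 + 1)
    simpa using h2
  · rintro ⟨z, y⟩ ⟨hz, hy⟩ hd
    rw [cone_d] at hd
    have d1 : Z.d z + v.f y = 0 := congrArg Prod.fst hd
    have d2 : Y.d y = 0 := neg_eq_zero.1 (congrArg Prod.snd hd)
    have hy0 : y ∈ Y.gr (k + 1) := hy
    obtain ⟨y1, h1, rfl⟩ := h.surj k z hz
    obtain ⟨x, h2, e3⟩ := h.mid (k + 1) (Y.d y1 + y) (add_mem (Y.dgr _ _ h1) hy0)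
      (by rw [map_add, v.comm, d1])
    have e4 : X.d x = 0 := h.inj _ _ (X.dgr _ _ h2) (by
      rw [u.comm, ← e3, map_add, Y.dd, d2, add_zero])
    refine ⟨x, h2, ?_, ((0, y1) : Z.V × Y.V), ⟨zero_mem _, by simpa using h1⟩, ?_⟩
    · change -(X.d x) = 0
      rw [e4, neg_zero]
    · rw [hF, cone_d]
      refine Prod.ext ?_ ?_
      · change Z.d 0 + v.f y1 = v.f y1 - 0
        rw [map_zero, zero_add, sub_zero]
      · change -(Y.d y1) = y - u.f x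
        rw [← e3]
        abel

theorem exact_retract {X Y : GD} (i : Hom X Y) (r : Hom Y X) (h : ∀ x, r.f (i.f x) = x)
    (hY : Y.Exact) : X.Exact := by
  intro m x hx hd
  obtain ⟨y, hy, e⟩ := hY m (i.f x) (i.deg _ _ hx) (by rw [← i.comm, hd, map_zero])
  exact ⟨r.f y, r.deg _ _ hy, by rw [← r.comm, e, h]⟩

theorem qis_of_inv {X Y : GD} (i : Hom X Y) (r : Hom Y X) (h : ∀ x, r.f (i.f x) = x)
    (h' : ∀ y, i.f (r.f y) = y) : Qis i := by
  intro m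
  refine ⟨?_, ?_⟩
  · rintro x hx hd ⟨y, hy, e⟩
    exact ⟨r.f y, r.deg _ _ hy, by rw [← r.comm, e, h]⟩
  · intro y hy hd
    exact ⟨r.f y, r.deg _ _ hy, by rw [← r.comm, hd, map_zero], 0, zero_mem _, by
      rw [h', map_zero, sub_self]⟩

theorem qis_sh (s : ℤ) {X Y : GD} {u : Hom X Y} (hu : Qis u) (F : Hom (gsh s X) (gsh s Y))
    (hF : ∀ x, F.f x = u.f x) : Qis F := by
  intro m
  have e0 : m - 1 + s = m + s - 1 := by ring
  refine ⟨?_, ?_⟩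
  · rintro x hx hd ⟨y, hy, e⟩
    rw [hF] at e
    have hy' : y ∈ Y.gr (m - 1 + s) := hy
    obtain ⟨x', hx', e'⟩ := (hu (m + s)).1 x hx (neg_eq_zero.1 hd)
      ⟨-y, neg_mem (e0 ▸ hy'), by rw [map_neg]; exact e⟩
    refine ⟨-x', ?_, ?_⟩
    · change -x' ∈ X.gr (m - 1 + s)
      rw [e0]
      exact neg_mem hx'
    · change -(X.d (-x')) = x
      rw [map_neg, neg_neg, e']
  · intro y hy hd
    obtain ⟨x, hx, hdx, y', hy', e⟩ := (hu (m + s)).2 y hy (neg_eq_zero.1 hd)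
    refine ⟨x, hx, ?_, -y', ?_, ?_⟩
    · change -(X.d x) = 0
      rw [hdx, neg_zero]
    · change -y' ∈ Y.gr (m - 1 + s)
      rw [e0]
      exact neg_mem hy'
    · change -(Y.d (-y')) = y - F.f x
      rw [map_neg, neg_neg, e, hF]

section Loc

variable {A B : Type} [CommRing A] [CommRing B] [Algebra ℂ A] [Algebra ℂ B]

/-- A strict localisation is a localisation on cohomology. -/
theorem locQ_strict {M : RG A} {N : RG B} (ρ : M.V →ₗ[ℂ] N.V) (s : A) (t : B)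
    (hd : ∀ x, ρ (M.d x) = N.d (ρ x)) (hs : ∀ x, ρ (s • x) = t • ρ x)
    (hk : ∀ x, ρ x = 0 → ∃ n : ℕ, s ^ n • x = 0)
    (hsu : ∀ m, ∀ y ∈ N.gr m, ∃ n : ℕ, ∃ x ∈ M.gr m, t ^ n • y = ρ x) : LocQ M N ρ s t := by
  have hp : ∀ (n : ℕ) x, ρ (s ^ n • x) = t ^ n • ρ x := by
    intro n
    induction n with
    | zero => simp
    | succ n ih => intro x; rw [pow_succ', mul_smul, hs, ih, pow_succ', mul_smul]
  intro m
  refine ⟨?_, ?_⟩
  · rintro x hx - ⟨y, hy, e⟩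
    obtain ⟨n, x', hx', e'⟩ := hsu _ y hy
    obtain ⟨k, hk'⟩ := hk (s ^ n • x - M.d x') (by
      rw [map_sub, hp, hd, ← e', N.d_smul, e, sub_self])
    refine ⟨k + n, s ^ k • x', M.gr_smul _ _ _ hx', ?_⟩
    rw [smul_sub, sub_eq_zero] at hk'
    rw [M.d_smul, ← hk', pow_add, mul_smul]
  · intro y hy hdy
    obtain ⟨n, x, hx, e⟩ := hsu _ y hy
    obtain ⟨k, hk'⟩ := hk (M.d x) (by rw [hd, ← e, N.d_smul, hdy, smul_zero])
    refine ⟨k + n, s ^ k • x, M.gr_smul _ _ _ hx, by rw [M.d_smul, hk'], 0, zero_mem _, ?_⟩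
    rw [map_zero, hp, ← e, pow_add, mul_smul, sub_self]

/-- The property is invariant under quasi-isomorphisms. -/
theorem LocQ.of_qis {M M' : RG A} {N N' : RG B} {ρ : M.V →ₗ[ℂ] N.V} {ρ' : M'.V →ₗ[ℂ] N'.V}
    {s : A} {t : B} (h : LocQ M N ρ s t) (f : Hom M.toGD M'.toGD) (g : Hom N.toGD N'.toGD)
    (hf : Qis f) (hg : Qis g) (lf : ∀ (r : A) x, f.f (r • x) = r • f.f x)
    (lg : ∀ (r : B) x, g.f (r • x) = r • g.f x) (hc : ∀ x, g.f (ρ x) = ρ' (f.f x))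
    (hd : ∀ x, ρ (M.d x) = N.d (ρ x)) (hgr : ∀ m, ∀ x ∈ M.gr m, ρ x ∈ N.gr m)
    (hd' : ∀ x, ρ' (M'.d x) = N'.d (ρ' x)) (hgr' : ∀ m, ∀ x ∈ M'.gr m, ρ' x ∈ N'.gr m) :
    LocQ M' N' ρ' s t := by
  intro m
  refine ⟨?_, ?_⟩
  · rintro x' hx' hdx' ⟨y', hy', e⟩
    obtain ⟨x, hx, hdx, a, ha, ea⟩ := (hf m).2 x' hx' hdx'
    obtain ⟨y, hy, ey⟩ := (hg m).1 (ρ x) (hgr _ _ hx) (by rw [← hd, hdx, map_zero])
      ⟨y' - ρ' a, sub_mem hy' (hgr' _ _ ha), by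
        rw [map_sub, e, ← hd', ea, map_sub, hc]
        abel⟩
    obtain ⟨n, x1, h1, e1⟩ := (h m).1 x hx hdx ⟨y, hy, ey⟩
    refine ⟨n, f.f x1 + s ^ n • a, add_mem (f.deg _ _ h1) (M'.gr_smul _ _ _ ha), ?_⟩
    rw [map_add, ← f.comm, e1, lf, M'.d_smul, ea, smul_sub]
    abel
  · intro y' hy' hdy'
    obtain ⟨y, hy, hdy, b, hb, eb⟩ := (hg m).2 y' hy' hdy'
    obtain ⟨n, x, hx, hdx, y1, h1, e1⟩ := (h m).2 y hy hdy
    refine ⟨n, f.f x, f.deg _ _ hx, by rw [← f.comm, hdx, map_zero], g.f y1 + t ^ n • b,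
      add_mem (g.deg _ _ h1) (N'.gr_smul _ _ _ hb), ?_⟩
    rw [map_add, ← g.comm, e1, map_sub, lg, hc, N'.d_smul, eb, smul_sub]
    abel

end Loc

end

end Vale.Agent.P286ET
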