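import Vale.Agent.P286ET.Ev
import Vale.Agent.P286ET.Bc

/-!
# The exact sequence of the composed kernels, with coefficients in a module
-/

namespace Vale.Agent.P286ET

open CategoryTheory TensorProduct Ix
open Vale.Agent.P286.H847 (GD)
open Vale.Agent.P286.H847.GD

noncomputable section

attribute [local instance] instCommRingVia instAlgebraComplexVia instAlgebraVia
  instIsScalarTowerComplexVia

variable {T T' : TDat Ix} {c c' : ℂ} (K : Ker T T' c) (L : Ker T' T c') (i k : Ix)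

theorem xr_tmul (j : Ix) (κ : (K.K i j).V) (l : (L.K j k).V) :
    xr K L i j k (κ ⊗ₜ l) = K.r (𝟙 i) (tn j) κ ⊗ₜ L.r (tn j) (𝟙 k) l := tmap_tmul _ _ _ _ _ κ l

/-- The restriction is linear. -/
def xrA (j : Ix) : XX K L i j k →ₗ[T.R i] XX K L i n k where
  toFun := xr K L i j k
  map_add' := map_add _
  map_smul' r z := by
    induction z using TensorProduct.induction_on with
    | zero => simp only [smul_zero, map_zero]
    | tmul κ l => rw [smul_tmul', xr_tmul, xr_tmul, K.r_l, T.tau_id, RingHom.id_apply, smul_tmul']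
    | add z z' h h' => simp only [smul_add, map_add, h, h']

/-- The ring of the intersection. -/
abbrev ZZ (T : TDat Ix) (i k : Ix) : Type := Via (T.tau (sl i k))

theorem zz_flat (T : TDat Ix) (i k : Ix) : Module.Flat (T.R i) (ZZ T i k) :=
  via_flat (T.away (sl i k))

variable {K L} (P : Pair K L)

/-- The pairing is linear. -/
def ppA : XX K L i n k →ₗ[T.R i] ZZ T i k where
  toFun z := toV _ (tlift (P.p i k) (P.p_m i k) z)
  map_add' z z' := by rw [map_add, map_add]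
  map_smul' r z := by
    induction z using TensorProduct.induction_on with
    | zero => simp only [smul_zero, map_zero]
    | tmul κ l =>
      rw [smul_tmul', tlift_tmul, tlift_tmul, P.p_l, RingHom.id_apply, via_smul, map_mul]
    | add z z' h h' => simp only [smul_add, map_add, h, h']

theorem ppA_tmul (κ : (K.K i n).V) (l : (L.K n k).V) :
    ppA i k P (κ ⊗ₜ l) = toV _ (P.p i k κ l) :=
  congrArg (fun y => toV (T.tau (sl i k)) y) (tlift_tmul (P.p i k) (P.p_m i k) κ l)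

variable (K L) in
/-- The difference of the restrictions. -/
def ffA : (XX K L i a k × XX K L i b k) →ₗ[T.R i] XX K L i n k :=
  (xrA K L i k a).comp (LinearMap.fst _ _ _) - (xrA K L i k b).comp (LinearMap.snd _ _ _)

include P in
theorem ffA_inj : Function.Injective (ffA K L i k) := by
  rw [injective_iff_map_eq_zero]
  intro x hx
  obtain ⟨h1, h2⟩ := P.inj i k x.1 x.2 (sub_eq_zero.1 hx)
  exact Prod.ext h1 h2

theorem pp_xr {j : Ix} (hp : ∀ (κ : (K.K i j).V) (l : (L.K j k).V),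
      P.p i k (K.r (𝟙 i) (tn j) κ) (L.r (tn j) (𝟙 k) l) = 0) (z : XX K L i j k) :
    ppA i k P (xr K L i j k z) = 0 := by
  induction z using TensorProduct.induction_on with
  | zero => simp only [map_zero]
  | tmul κ l => rw [xr_tmul, ppA_tmul, hp, map_zero]
  | add z z' h h' => simp only [map_add, h, h', add_zero]

theorem ffA_ex : Function.Exact (ffA K L i k) (ppA i k P) := by
  intro z
  constructor
  · intro h
    obtain ⟨x, y, e⟩ := P.mid i k z h
    exact ⟨(x, y), e.symm⟩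
  · rintro ⟨x, rfl⟩
    change ppA i k P (xr K L i a k x.1 - xr K L i b k x.2) = 0
    rw [map_sub, pp_xr i k P (P.p_a i k), pp_xr i k P (P.p_b i k), sub_self]

theorem ppA_surj : Function.Surjective (ppA i k P) := P.surj i k

section N

variable (N : Type) [AddCommGroup N] [Module ℂ N] [Module (T.R i) N] [IsScalarTower ℂ (T.R i) N]

variable (K L) in
/-- The iterated tensor product. -/
abbrev YY (j : Ix) : Type := (L.K j k).V ⊗[T'.R j] ((K.K i j).V ⊗[T.R i] N)

variable (K) in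
/-- The restriction. -/
def kr (j : Ix) : (K.K i j).V ⊗[T.R i] N →ₗ[ℂ] (K.K i n).V ⊗[T.R i] N :=
  tmap (A := T.R i) (B := T.R i) id (K.r (𝟙 i) (tn j)) (LinearMap.id : N →ₗ[ℂ] N)
    (fun x κ => by rw [K.r_l, T.tau_id]; rfl) (fun _ _ => rfl)

variable (K) in
theorem kr_tmul (j : Ix) (κ : (K.K i j).V) (x : N) :
    kr K i N j (κ ⊗ₜ x) = K.r (𝟙 i) (tn j) κ ⊗ₜ x := tmap_tmul _ _ _ _ _ κ x

variable (K) in
theorem kr_smul (j : Ix) (y : T'.R j) (z : (K.K i j).V ⊗[T.R i] N) :
    kr K i N j (y • z) = T'.tau (tn j) y • kr K i N j z := by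
  induction z using TensorProduct.induction_on with
  | zero => simp only [smul_zero, map_zero]
  | tmul κ x => rw [smul_tmul', kr_tmul, kr_tmul, K.r_r, smul_tmul']
  | add z z' h h' => simp only [smul_add, map_add, h, h']

variable (K L) in
/-- The restriction. -/
def yr (j : Ix) : YY K L i k N j →ₗ[ℂ] YY K L i k N n :=
  tmap (T'.tau (tn j)) (L.r (tn j) (𝟙 k)) (kr K i N j) (L.r_l _ _) (kr_smul K i N j)

theorem yr_tmul (j : Ix) (l : (L.K j k).V) (z : (K.K i j).V ⊗[T.R i] N) :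
    yr K L i k N j (l ⊗ₜ z) = L.r (tn j) (𝟙 k) l ⊗ₜ kr K i N j z := tmap_tmul _ _ _ _ _ l z

/-- The pairing. -/
def yp : YY K L i k N n →ₗ[ℂ] ZZ T i k ⊗[T.R i] N :=
  (((ppA i k P).rTensor N).restrictScalars ℂ).comp (asA (K.K i n) (L.K n k).V N)

theorem yp_apply (z : YY K L i k N n) :
    yp i k P N z = (ppA i k P).rTensor N (asA (K.K i n) (L.K n k).V N z) := rfl

theorem yp_tmul (l : (L.K n k).V) (κ : (K.K i n).V) (x : N) :
    yp i k P N (l ⊗ₜ (κ ⊗ₜ x)) = toV _ (P.p i k κ l) ⊗ₜ x := by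
  rw [yp_apply, asA_tmul, LinearMap.rTensor_tmul, ppA_tmul]

theorem asA_yr (j : Ix) (z : YY K L i k N j) :
    asA (K.K i n) (L.K n k).V N (yr K L i k N j z) =
      (xrA K L i k j).rTensor N (asA (K.K i j) (L.K j k).V N z) :=
  text2 (F := (asA (K.K i n) (L.K n k).V N).comp (yr K L i k N j))
    (G := (((xrA K L i k j).rTensor N).restrictScalars ℂ).comp (asA (K.K i j) (L.K j k).V N))
    (fun l κ x => by
      rw [LinearMap.comp_apply, LinearMap.comp_apply, yr_tmul, kr_tmul, asA_tmul, asA_tmul,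
        LinearMap.restrictScalars_apply, LinearMap.rTensor_tmul]
      exact congrArg (· ⊗ₜ[T.R i] x) (xr_tmul K L i k j κ l).symm) z

theorem yr_asB (j : Ix) (η : XX K L i j k ⊗[T.R i] N) :
    yr K L i k N j (asB (K.K i j) (L.K j k).V N η) =
      asB (K.K i n) (L.K n k).V N ((xrA K L i k j).rTensor N η) := by
  rw [← asB_asA (yr K L i k N j _), asA_yr, asA_asB]

omit [Module ℂ N] [IsScalarTower ℂ (T.R i) N] in
theorem ff_rT (ξ : (XX K L i a k × XX K L i b k) ⊗[T.R i] N) :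
    (ffA K L i k).rTensor N ξ =
      (xrA K L i k a).rTensor N ((LinearMap.fst _ _ _).rTensor N ξ) -
        (xrA K L i k b).rTensor N ((LinearMap.snd _ _ _).rTensor N ξ) := by
  rw [ffA, LinearMap.rTensor_sub, LinearMap.rTensor_comp, LinearMap.rTensor_comp]
  rfl

include P in
theorem y_inj (x : YY K L i k N a) (y : YY K L i k N b)
    (h : yr K L i k N a x = yr K L i k N b y) : x = 0 ∧ y = 0 := by
  have := zz_flat T i k
  have hi : Function.Injective ((ffA K L i k).rTensor N) :=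
    ((ffA K L i k).lTensor_inj_iff_rTensor_inj N).1
      (LinearMap.lTensor_injective_of_exact_of_flat (ppA i k P) (ppA_surj i k P) (ffA K L i k)
        (ffA_inj i k P) (ffA_ex i k P) N)
  let ξ : (XX K L i a k × XX K L i b k) ⊗[T.R i] N :=
    (LinearMap.inl _ _ _).rTensor N (asA (K.K i a) (L.K a k).V N x) +
      (LinearMap.inr _ _ _).rTensor N (asA (K.K i b) (L.K b k).V N y)
  have h1 : (LinearMap.fst _ _ _).rTensor N ξ = asA (K.K i a) (L.K a k).V N x := by
    simp only [ξ, map_add, ← LinearMap.rTensor_comp_apply, LinearMap.fst_comp_inl,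
      LinearMap.fst_comp_inr, LinearMap.rTensor_id, LinearMap.rTensor_zero, LinearMap.id_apply,
      LinearMap.zero_apply, add_zero]
  have h2 : (LinearMap.snd _ _ _).rTensor N ξ = asA (K.K i b) (L.K b k).V N y := by
    simp only [ξ, map_add, ← LinearMap.rTensor_comp_apply, LinearMap.snd_comp_inl,
      LinearMap.snd_comp_inr, LinearMap.rTensor_id, LinearMap.rTensor_zero, LinearMap.id_apply,
      LinearMap.zero_apply, zero_add]
  have h0 : ξ = 0 := hi (by rw [ff_rT, h1, h2, ← asA_yr, ← asA_yr, h, sub_self, map_zero])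
  rw [h0, map_zero] at h1 h2
  exact ⟨by rw [← asB_asA x, ← h1, map_zero], by rw [← asB_asA y, ← h2, map_zero]⟩

theorem y_mid (z : YY K L i k N n) (h : yp i k P N z = 0) :
    ∃ x y, z = yr K L i k N a x - yr K L i k N b y := by
  obtain ⟨ξ, e⟩ := (rTensor_exact N (ffA_ex i k P) (ppA_surj i k P) _).1 h
  refine ⟨asB (K.K i a) (L.K a k).V N ((LinearMap.fst _ _ _).rTensor N ξ),
    asB (K.K i b) (L.K b k).V N ((LinearMap.snd _ _ _).rTensor N ξ), ?_⟩
  rw [yr_asB, yr_asB, ← map_sub, ← ff_rT, e, asB_asA]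

theorem y_surj (z : ZZ T i k ⊗[T.R i] N) : ∃ y, yp i k P N y = z := by
  obtain ⟨η, rfl⟩ := LinearMap.rTensor_surjective N (ppA_surj i k P) z
  exact ⟨asB (K.K i n) (L.K n k).V N η, by rw [yp_apply, asA_asB]⟩

theorem y_zero {j : Ix} (hp : ∀ (κ : (K.K i j).V) (l : (L.K j k).V),
      P.p i k (K.r (𝟙 i) (tn j) κ) (L.r (tn j) (𝟙 k) l) = 0) (z : YY K L i k N j) :
    yp i k P N (yr K L i k N j z) = 0 :=
  text2 (F := (yp i k P N).comp (yr K L i k N j)) (G := 0) (fun l κ x => by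
    rw [LinearMap.comp_apply, yr_tmul, kr_tmul, yp_tmul, hp, map_zero, zero_tmul,
      LinearMap.zero_apply]) z

end N

section Gr

variable (M : RG (T.R i))

variable (K) in
/-- The inclusion of a graded piece. -/
def ki (m : ℤ) (j : Ix) : (K.K i j).V ⊗[T.R i] M.grR m →ₗ[ℂ] (K.K i j).V ⊗[T.R i] M.V :=
  lt _ ((M.grR m).subtype.restrictScalars ℂ) (fun _ _ => rfl)

variable (K) in
theorem ki_tmul (m : ℤ) (j : Ix) (κ : (K.K i j).V) (x : M.grR m) :
    ki K i M m j (κ ⊗ₜ x) = κ ⊗ₜ x.1 := lt_tmul _ _ κ x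

variable (K L) in
/-- The inclusion of a graded piece. -/
def yi (m : ℤ) (j : Ix) : YY K L i k (M.grR m) j →ₗ[ℂ] YY K L i k M.V j :=
  lt _ (ki K i M m j) (fun y z => lt_smul (K.K i j) _ (fun _ _ => rfl) y z)

theorem yi_tmul (m : ℤ) (j : Ix) (l : (L.K j k).V) (z : (K.K i j).V ⊗[T.R i] M.grR m) :
    yi K L i k M m j (l ⊗ₜ z) = l ⊗ₜ ki K i M m j z := lt_tmul _ _ l z

variable (K L) in
/-- The graded pieces. -/
abbrev SS (m : ℤ) (j : Ix) : Submodule ℂ (YY K L i k M.V j) :=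
  tgr (L.K j k).V (ten (K.K i j) M) m

theorem yi_mem (m : ℤ) (j : Ix) (ξ : YY K L i k (M.grR m) j) :
    yi K L i k M m j ξ ∈ SS K L i k M m j := by
  induction ξ using TensorProduct.induction_on with
  | zero => rw [map_zero]; exact zero_mem _
  | tmul l z =>
    rw [yi_tmul]
    refine tgr_tmul (M := ten (K.K i j) M) l ?_
    induction z using TensorProduct.induction_on with
    | zero => rw [map_zero]; exact zero_mem _
    | tmul κ x => rw [ki_tmul]; exact tgr_tmul κ x.2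
    | add z z' h h' => rw [map_add]; exact add_mem h h'
  | add z z' h h' => rw [map_add]; exact add_mem h h'

theorem yi_of_mem (m : ℤ) (j : Ix) (z : YY K L i k M.V j) (hz : z ∈ SS K L i k M m j) :
    ∃ ξ, yi K L i k M m j ξ = z := by
  refine tgr_ind (M := ten (K.K i j) M) (P := fun z => ∃ ξ, yi K L i k M m j ξ = z) hz
    ⟨0, map_zero _⟩ (fun l w hw => ?_) ?_
  · obtain ⟨ξ, rfl⟩ : ∃ ξ, ki K i M m j ξ = w :=
      tgr_ind (P := fun w => ∃ ξ, ki K i M m j ξ = w) hw ⟨0, map_zero _⟩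
        (fun κ x hx => ⟨κ ⊗ₜ ⟨x, hx⟩, ki_tmul K i M m j κ _⟩)
        (by
          rintro _ _ ⟨ξ, rfl⟩ ⟨ξ', rfl⟩
          exact ⟨ξ + ξ', map_add _ _ _⟩)
    exact ⟨l ⊗ₜ ξ, yi_tmul i k M m j l ξ⟩
  · rintro _ _ ⟨ξ, rfl⟩ ⟨ξ', rfl⟩
    exact ⟨ξ + ξ', map_add _ _ _⟩

theorem yi_yr (m : ℤ) (j : Ix) (ξ : YY K L i k (M.grR m) j) :
    yi K L i k M m n (yr K L i k (M.grR m) j ξ) = yr K L i k M.V j (yi K L i k M m j ξ) :=
  text2 (F := (yi K L i k M m n).comp (yr K L i k (M.grR m) j))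
    (G := (yr K L i k M.V j).comp (yi K L i k M m j)) (fun l κ x => by
      rw [LinearMap.comp_apply, LinearMap.comp_apply, yr_tmul, kr_tmul, yi_tmul, yi_tmul, ki_tmul,
        ki_tmul, yr_tmul, kr_tmul]) ξ

theorem yp_yi (m : ℤ) (ξ : YY K L i k (M.grR m) n) :
    yp i k P M.V (yi K L i k M m n ξ) =
      (M.grR m).subtype.lTensor (ZZ T i k) (yp i k P (M.grR m) ξ) :=
  text2 (F := (yp i k P M.V).comp (yi K L i k M m n))
    (G := (((M.grR m).subtype.lTensor (ZZ T i k)).restrictScalars ℂ).comp (yp i k P (M.grR m)))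
    (fun l κ x => by
      rw [LinearMap.comp_apply, LinearMap.comp_apply, yi_tmul, ki_tmul, yp_tmul, yp_tmul]
      rfl) ξ

theorem lev_mid (m : ℤ) (z : YY K L i k M.V n) (hz : z ∈ SS K L i k M m n)
    (h : yp i k P M.V z = 0) : ∃ x ∈ SS K L i k M m a, ∃ y ∈ SS K L i k M m b,
      z = yr K L i k M.V a x - yr K L i k M.V b y := by
  have := zz_flat T i k
  obtain ⟨ξ, rfl⟩ := yi_of_mem i k M m n z hz
  have h0 : yp i k P (M.grR m) ξ = 0 := by
    apply Module.Flat.lTensor_preserves_injective_linearMap (M := ZZ T i k) (M.grR m).subtype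
      Subtype.val_injective
    rw [← yp_yi, h, map_zero]
  obtain ⟨x, y, rfl⟩ := y_mid i k P _ ξ h0
  exact ⟨_, yi_mem i k M m a x, _, yi_mem i k M m b y, by rw [map_sub, yi_yr, yi_yr]⟩

theorem lev_surj (m : ℤ) (z : ZZ T i k ⊗[T.R i] M.V) (hz : z ∈ tgr (ZZ T i k) M m) :
    ∃ y ∈ SS K L i k M m n, yp i k P M.V y = z := by
  obtain ⟨η, rfl⟩ := hz
  obtain ⟨ξ, rfl⟩ := y_surj i k P _ η
  exact ⟨_, yi_mem i k M m n ξ, yp_yi i k P M m ξ⟩

theorem lev_gr (m : ℤ) (y : YY K L i k M.V n) (hy : y ∈ SS K L i k M m n) :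
    yp i k P M.V y ∈ tgr (ZZ T i k) M m := by
  obtain ⟨ξ, rfl⟩ := yi_of_mem i k M m n y hy
  exact ⟨_, (yp_yi i k P M m ξ).symm⟩

end Gr

end

end Vale.Agent.P286ET
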