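import Vale.Agent.P286ET.Fun

/-!
# The functor defined by a kernel, and the Cech resolution
-/

namespace Vale.Agent.P286ET

open CategoryTheory TensorProduct Ix
open Vale.Agent.P286.H847 (GD)
open Vale.Agent.P286.H847.GD
open Vale.Agent.P286.H353

noncomputable section

variable {T T' : TDat Ix} {c : ℂ} (K : Ker T T' c)

section Ops

variable (X : TObj T) (i j : Ix)

/-- The tensor product. -/
abbrev TV : Type := (K.K i j).V ⊗[T.R i] (X.M i).V

/-- The connection on the tensor product. -/
def tD : TV K X i j →ₗ[ℂ] TV K X i j :=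
  tlift (LinearMap.mk₂ ℂ (fun k x => K.D i j k ⊗ₜ[T.R i] x + c • (k ⊗ₜ[T.R i] X.D i x))
    (fun k k' x => by rw [map_add, add_tmul, add_tmul, smul_add]; abel)
    (fun z k x => by rw [map_smul, ← smul_tmul', ← smul_tmul', smul_add, smul_comm z c])
    (fun k x x' => by rw [map_add, tmul_add, tmul_add, smul_add]; abel)
    (fun z k x => by rw [map_smul, tmul_smul, tmul_smul, smul_add, smul_comm z c]))
    (fun r k x => by
      rw [LinearMap.mk₂_apply, LinearMap.mk₂_apply, K.D_l, X.D_smul, add_tmul, tmul_add,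
        smul_add, ← smul_tmul' c, smul_tmul r, smul_tmul r, smul_tmul (T.dd i r)]
      abel)

theorem tD_tmul (k : (K.K i j).V) (x : (X.M i).V) :
    tD K X i j (k ⊗ₜ x) = K.D i j k ⊗ₜ[T.R i] x + c • (k ⊗ₜ[T.R i] X.D i x) :=
  tlift_tmul _ _ k x

/-- The odd operator. -/
def tE : TV K X i j →ₗ[ℂ] TV K X i j := lt _ (X.e i) (X.e_smul i)

theorem tE_tmul (k : (K.K i j).V) (x : (X.M i).V) : tE K X i j (k ⊗ₜ x) = k ⊗ₜ X.e i x :=
  lt_tmul _ _ k x

/-- The involution. -/
def tW : TV K X i j →ₗ[ℂ] TV K X i j :=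
  tmap (T.w i) (K.w i j) (X.w i) (K.w_l i j) (X.w_smul i)

theorem tW_tmul (k : (K.K i j).V) (x : (X.M i).V) :
    tW K X i j (k ⊗ₜ x) = K.w i j k ⊗ₜ X.w i x := tmap_tmul _ _ _ _ _ k x

theorem td_tmul (k : (K.K i j).V) (x : (X.M i).V) :
    (ten (K.K i j) (X.M i)).d (k ⊗ₜ x) = k ⊗ₜ (X.M i).d x := lt_tmul _ (X.M i).d_smul k x

variable {i j} {i' j' : Ix}

/-- The restriction. -/
def tR (u : i ⟶ i') (v : j ⟶ j') : TV K X i j →ₗ[ℂ] TV K X i' j' :=
  tmap (T.tau u) (K.r u v) (X.rho u) (K.r_l u v) (X.rho_smul u)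

theorem tR_tmul (u : i ⟶ i') (v : j ⟶ j') (k : (K.K i j).V) (x : (X.M i).V) :
    tR K X u v (k ⊗ₜ x) = K.r u v k ⊗ₜ X.rho u x := tmap_tmul _ _ _ _ _ k x

theorem tR_smul (u : i ⟶ i') (v : j ⟶ j') (y : T'.R j) (z : TV K X i j) :
    tR K X u v (y • z) = T'.tau v y • tR K X u v z := by
  induction z using TensorProduct.induction_on with
  | zero => simp only [smul_zero, map_zero]
  | tmul k x => rw [smul_tmul', tR_tmul, tR_tmul, K.r_r, smul_tmul']
  | add z z' h h' => simp only [smul_add, map_add, h, h']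

theorem tR_comp {i'' j'' : Ix} (u : i ⟶ i') (v : j ⟶ j') (u' : i' ⟶ i'') (v' : j' ⟶ j'')
    (z : TV K X i j) : tR K X (u ≫ u') (v ≫ v') z = tR K X u' v' (tR K X u v z) := by
  induction z using TensorProduct.induction_on with
  | zero => simp only [map_zero]
  | tmul k x => rw [tR_tmul, tR_tmul, tR_tmul, K.r_comp, X.rho_comp]
  | add z z' h h' => simp only [map_add, h, h']

theorem tR_d (u : i ⟶ i') (v : j ⟶ j') (z : TV K X i j) :
    tR K X u v ((ten (K.K i j) (X.M i)).d z) = (ten (K.K i' j') (X.M i')).d (tR K X u v z) := by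
  induction z using TensorProduct.induction_on with
  | zero => simp only [map_zero]
  | tmul k x => rw [td_tmul, tR_tmul, tR_tmul, td_tmul, X.rho_d]
  | add z z' h h' => simp only [map_add, h, h']

theorem tR_gr (u : i ⟶ i') (v : j ⟶ j') (m : ℤ) (z : TV K X i j)
    (hz : z ∈ tgr (K.K i j).V (X.M i) m) : tR K X u v z ∈ tgr (K.K i' j').V (X.M i') m :=
  tgr_map _ _ (fun k x hx => by
    rw [tR_tmul]
    exact tgr_tmul _ (X.rho_gr u m x hx)) hz

theorem tR_D (u : i ⟶ i') (v : j ⟶ j') (z : TV K X i j) :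
    tR K X u v (tD K X i j z) = tD K X i' j' (tR K X u v z) + T'.eta v • tR K X u v z := by
  induction z using TensorProduct.induction_on with
  | zero => simp only [map_zero, smul_zero, add_zero]
  | tmul k x =>
    rw [tD_tmul, map_add, map_smul, tR_tmul, tR_tmul, tR_tmul, tD_tmul, K.r_D, X.rho_D, sub_tmul,
      add_tmul, tmul_add, smul_add, ← smul_tmul' c, smul_tmul (T.eta u), smul_tmul' (T'.eta v)]
    abel
  | add z z' h h' =>
    simp only [map_add, smul_add, h, h']
    abel

theorem tR_E (u : i ⟶ i') (v : j ⟶ j') (z : TV K X i j) :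
    tR K X u v (tE K X i j z) = tE K X i' j' (tR K X u v z) := by
  induction z using TensorProduct.induction_on with
  | zero => simp only [map_zero]
  | tmul k x => rw [tE_tmul, tR_tmul, tR_tmul, tE_tmul, X.rho_e]
  | add z z' h h' => simp only [map_add, h, h']

theorem tR_W (u : i ⟶ i') (v : j ⟶ j') (z : TV K X i j) :
    tR K X u v (tW K X i j z) = tW K X i' j' (tR K X u v z) := by
  induction z using TensorProduct.induction_on with
  | zero => simp only [map_zero]
  | tmul k x => rw [tW_tmul, tR_tmul, tR_tmul, tW_tmul, X.rho_w, K.r_w]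
  | add z z' h h' => simp only [map_add, h, h']

end Ops

/-- The family of tensor products. -/
def tenO (i : Ix) (X : TObj T) : TObj T' where
  M j := ten (K.K i j) (X.M i)
  D j := tD K X i j
  D_smul j y z := by
    induction z using TensorProduct.induction_on with
    | zero => simp only [smul_zero, map_zero, add_zero]
    | tmul k x =>
      rw [smul_tmul', tD_tmul, tD_tmul, K.D_r, add_tmul, smul_add, smul_comm y c, smul_tmul' y,
        smul_tmul' y, smul_tmul' (T'.dd j y)]
      abel
    | add z z' h h' =>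
      simp only [smul_add, map_add, h, h']
      abel
  D_d j z := by
    induction z using TensorProduct.induction_on with
    | zero => simp only [map_zero]
    | tmul k x => rw [tD_tmul, map_add, map_smul, td_tmul, td_tmul, td_tmul, tD_tmul, X.D_d]
    | add z z' h h' => simp only [map_add, h, h']
  D_gr j m z hz := tgr_map _ _ (fun k x hx => by
    rw [tD_tmul]
    exact add_mem (tgr_tmul _ hx) (Submodule.smul_mem _ _ (tgr_tmul _ (X.D_gr i m x hx)))) hz
  e j := tE K X i j
  e_smul j y z := lt_smul (K.K i j) (X.e i) (X.e_smul i) y z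
  e_d j z := by
    induction z using TensorProduct.induction_on with
    | zero => simp only [map_zero, neg_zero]
    | tmul k x => rw [tE_tmul, td_tmul, td_tmul, tE_tmul, X.e_d, tmul_neg]
    | add z z' h h' => simp only [map_add, h, h', neg_add]
  e_gr j m z hz := tgr_map _ _ (fun k x hx => by
    rw [tE_tmul]
    exact tgr_tmul _ (X.e_gr i m x hx)) hz
  e_e j z := by
    induction z using TensorProduct.induction_on with
    | zero => simp only [map_zero]
    | tmul k x => rw [tE_tmul, tE_tmul, X.e_e, tmul_zero]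
    | add z z' h h' => simp only [map_add, h, h', add_zero]
  D_e j z := by
    induction z using TensorProduct.induction_on with
    | zero => simp only [map_zero]
    | tmul k x => rw [tE_tmul, tD_tmul, tD_tmul, map_add, map_smul, tE_tmul, tE_tmul, X.D_e]
    | add z z' h h' => simp only [map_add, h, h']
  w j := tW K X i j
  w_smul j y z := by
    induction z using TensorProduct.induction_on with
    | zero => simp only [smul_zero, map_zero]
    | tmul k x => rw [smul_tmul', tW_tmul, tW_tmul, K.w_r, smul_tmul']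
    | add z z' h h' => simp only [smul_add, map_add, h, h']
  w_d j z := by
    induction z using TensorProduct.induction_on with
    | zero => simp only [map_zero]
    | tmul k x => rw [tW_tmul, td_tmul, td_tmul, tW_tmul, X.w_d]
    | add z z' h h' => simp only [map_add, h, h']
  w_gr j m z hz := tgr_map _ _ (fun k x hx => by
    rw [tW_tmul]
    exact tgr_tmul _ (X.w_gr i m x hx)) hz
  w_w j z := by
    induction z using TensorProduct.induction_on with
    | zero => simp only [map_zero]
    | tmul k x => rw [tW_tmul, tW_tmul, K.w_w, X.w_w]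
    | add z z' h h' => simp only [map_add, h, h']
  w_D j z := by
    induction z using TensorProduct.induction_on with
    | zero => simp only [map_zero, neg_zero]
    | tmul k x =>
      rw [tD_tmul, map_add, map_smul, tW_tmul, tW_tmul, tW_tmul, tD_tmul, K.w_D, X.w_D, neg_tmul,
        tmul_neg, smul_neg, neg_add]
    | add z z' h h' => simp only [map_add, h, h', neg_add]
  w_e j z := by
    induction z using TensorProduct.induction_on with
    | zero => simp only [map_zero, neg_zero]
    | tmul k x => rw [tE_tmul, tW_tmul, tW_tmul, tE_tmul, X.w_e, tmul_neg]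
    | add z z' h h' => simp only [map_add, h, h', neg_add]
  rho v := tR K X (𝟙 i) v
  rho_id j z := by
    induction z using TensorProduct.induction_on with
    | zero => simp only [map_zero]
    | tmul k x => rw [tR_tmul, K.r_id, X.rho_id]
    | add z z' h h' => simp only [map_add, h, h']
  rho_comp v v' z := by rw [← tR_comp, Category.id_comp]
  rho_smul v := tR_smul K X (𝟙 i) v
  rho_d v := tR_d K X (𝟙 i) v
  rho_gr v := tR_gr K X (𝟙 i) v
  rho_D v := tR_D K X (𝟙 i) v
  rho_e v := tR_E K X (𝟙 i) v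
  rho_w v := tR_W K X (𝟙 i) v

section Map

variable {X Y : TObj T} {p : ℤ}

/-- The map induced by a cochain. -/
def tL (α : Co X Y p) (i j : Ix) : TV K X i j →ₗ[ℂ] TV K Y i j := lt _ (α.f i) (α.isCo.lin i)

theorem tL_tmul (α : Co X Y p) (i j : Ix) (k : (K.K i j).V) (x : (X.M i).V) :
    tL K α i j (k ⊗ₜ x) = k ⊗ₜ α.f i x := lt_tmul _ _ k x

theorem tL_R (α : Co X Y p) {i j i' j' : Ix} (u : i ⟶ i') (v : j ⟶ j') (z : TV K X i j) :
    tL K α i' j' (tR K X u v z) = tR K Y u v (tL K α i j z) := by
  induction z using TensorProduct.induction_on with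
  | zero => simp only [map_zero]
  | tmul k x => rw [tL_tmul, tR_tmul, tR_tmul, tL_tmul, α.isCo.rho]
  | add z z' h h' => simp only [map_add, h, h']

/-- The induced cochain. -/
def tenCo (i : Ix) (α : Co X Y p) : Co (tenO K i X) (tenO K i Y) p :=
  Co.mk (fun j => tL K α i j)
    ⟨fun j m (z : TV K X i j) hz => tgr_map (tL K α i j) _ (fun k x hx => by
        rw [tL_tmul]
        exact tgr_tmul _ (α.isCo.deg i m x hx)) hz,
      fun j y z => lt_smul (K.K i j) (α.f i) (α.isCo.lin i) y z,
      fun j (z : TV K X i j) => by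
        change tL K α i j (tD K X i j z) = tD K Y i j (tL K α i j z)
        induction z using TensorProduct.induction_on with
        | zero => simp only [map_zero]
        | tmul k x =>
          rw [tD_tmul, map_add, map_smul, tL_tmul, tL_tmul, tL_tmul, tD_tmul, α.isCo.D]
        | add z z' h h' => simp only [map_add, h, h'],
      fun j (z : TV K X i j) => by
        change tL K α i j (tE K X i j z) = (p.negOnePow : ℤ) • tE K Y i j (tL K α i j z)
        induction z using TensorProduct.induction_on with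
        | zero => simp only [map_zero, smul_zero]
        | tmul k x => rw [tE_tmul, tL_tmul, tL_tmul, tE_tmul, α.isCo.e, tmul_smul]
        | add z z' h h' => simp only [map_add, h, h', smul_add],
      fun j (z : TV K X i j) => by
        change tL K α i j (tW K X i j z) = tW K Y i j (tL K α i j z)
        induction z using TensorProduct.induction_on with
        | zero => simp only [map_zero]
        | tmul k x => rw [tW_tmul, tL_tmul, tL_tmul, tW_tmul, α.isCo.w]
        | add z z' h h' => simp only [map_add, h, h'],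
      fun v z => tL_R K α (𝟙 i) v z⟩

end Map

/-- The functor given by the tensor product on one chart. -/
def tenF (i : Ix) : TF T T' where
  obj := tenO K i
  map {X Y} p :=
    { toFun := tenCo K i
      map_add' := fun α β => Co.ext' fun j => text
        (F := tL K (α + β) i j) (G := tL K α i j + tL K β i j) (fun k x => by
          rw [LinearMap.add_apply, tL_tmul, tL_tmul, tL_tmul, Co.add_f, LinearMap.add_apply,
            tmul_add])
      map_smul' := fun z α => Co.ext' fun j => text
        (F := tL K (z • α) i j) (G := z • tL K α i j) (fun k x => by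
          rw [LinearMap.smul_apply, tL_tmul, tL_tmul, Co.smul_f, LinearMap.smul_apply,
            tmul_smul]) }
  map_one X j := text (F := tL K (Co.one X) i j) (G := LinearMap.id) (fun k x => by
    rw [tL_tmul]
    rfl)
  map_comp h α β j := text (F := tL K (Co.cmp h α β) i j) (G := (tL K β i j).comp (tL K α i j))
    (fun k x => by
      rw [LinearMap.comp_apply, tL_tmul, tL_tmul, tL_tmul]
      rfl)
  map_dl {X Y} p α j := text (F := tL K (Co.dl rfl α) i j)
    (G := (ten (K.K i j) (Y.M i)).d.comp (tL K α i j) -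
      (p.negOnePow : ℤ) • (tL K α i j).comp (ten (K.K i j) (X.M i)).d) (fun k x => by
      rw [LinearMap.sub_apply, LinearMap.smul_apply, LinearMap.comp_apply, LinearMap.comp_apply,
        tL_tmul, tL_tmul, td_tmul, td_tmul, tL_tmul, Co.dl_f, tmul_sub, tmul_smul])

/-- The restriction to the intersection. -/
def tenN (i : Ix) : NT (tenF K i) (tenF K n) where
  app X :=
    { co := Co.mk (fun j => tR K X (tn i) (𝟙 j))
        ⟨fun j m z hz => by
            rw [add_zero]
            exact tR_gr K X (tn i) (𝟙 j) m z hz,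
          fun j y (z : TV K X i j) => (tR_smul K X (tn i) (𝟙 j) y z).trans (by rw [T'.tau_id]; rfl),
          fun j (z : TV K X i j) => (tR_D K X (tn i) (𝟙 j) z).trans (by
            rw [T'.eta_id, zero_smul, add_zero]; rfl),
          fun j (z : TV K X i j) => (tR_E K X (tn i) (𝟙 j) z).trans (by
            rw [Int.negOnePow_zero, Units.val_one, one_smul]; rfl),
          fun j z => tR_W K X (tn i) (𝟙 j) z,
          fun {j j'} v (z : TV K X i j) => by
            change tR K X (tn i) (𝟙 j') (tR K X (𝟙 i) v z) =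
              tR K X (𝟙 n) v (tR K X (tn i) (𝟙 j) z)
            rw [← tR_comp, ← tR_comp, Category.id_comp, Category.id_comp, Category.comp_id,
              Category.comp_id]⟩
      cl := fun j z => tR_d K X (tn i) (𝟙 j) z }
  nat p α j z := (tL_R K α (tn i) (𝟙 j) z).symm

/-- The functor defined by a kernel. -/
def phi : TF T T' := ceF (tenN K a) (tenN K b)

theorem tenF_pq (i : Ix) : (tenF K i).PQ := fun {X _} u hu j => by
  have := K.flat i j
  exact qis_congr (fun _ => rfl)
    (tenH_qis (X := (K.K i j).V) (u.gd i) (u.co.isCo.lin i) (hu i))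

theorem phi_pq : (phi K).PQ := ceF_pq _ _ (tenF_pq K a) (tenF_pq K b) (tenF_pq K n)

theorem tR_ker (X : TObj T) (i : Ix) {j j' : Ix} (v : j ⟶ j') (z : TV K X i j)
    (hz : tR K X (𝟙 i) v z = 0) : ∃ m : ℕ, T'.s v ^ m • z = 0 := by
  refine loc_ker (K.K i j) (K.K i j') (T'.tau v) (K.r (𝟙 i) v)
    (fun x k => by rw [K.r_l, T.tau_id]) (K.r_r _ v) (T'.s v) (T'.away v).unit (K.loc_inj i v)
    (K.loc_surj i v) z (Eq.trans ?_ hz)
  exact text (fun k x => by rw [tmap_tmul, tR_tmul, X.rho_id]; rfl) z

theorem tR_surj (X : TObj T) (i : Ix) {j j' : Ix} (v : j ⟶ j') (m : ℤ) (z' : TV K X i j')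
    (hz : z' ∈ tgr (K.K i j').V (X.M i) m) :
    ∃ l : ℕ, ∃ z ∈ tgr (K.K i j).V (X.M i) m, T'.tau v (T'.s v) ^ l • z' = tR K X (𝟙 i) v z := by
  refine tgr_ind (P := fun z' => ∃ l : ℕ, ∃ z ∈ tgr (K.K i j).V (X.M i) m,
    T'.tau v (T'.s v) ^ l • z' = tR K X (𝟙 i) v z) hz ⟨0, 0, zero_mem _, by simp⟩ ?_ ?_
  · intro k' x hx
    obtain ⟨l, k, e⟩ := K.loc_surj i v k'
    exact ⟨l, k ⊗ₜ x, tgr_tmul _ hx, by rw [tR_tmul, X.rho_id, smul_tmul', e]⟩
  · rintro z z' ⟨l, y, hy, e⟩ ⟨l', y', hy', e'⟩
    refine ⟨l + l', T'.s v ^ l' • y + T'.s v ^ l • y',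
      add_mem ((ten (K.K i j) (X.M i)).gr_smul m _ _ hy) ((ten (K.K i j) (X.M i)).gr_smul m _ _ hy'),
      ?_⟩
    rw [map_add, tR_smul, tR_smul, ← e, ← e', map_pow, map_pow, smul_smul, smul_smul, ← pow_add,
      ← pow_add, add_comm l' l, smul_add]

theorem pow_kill {B V : Type} [CommRing B] [AddCommGroup V] [Module B V] {s : B} {z : V}
    {l m : ℕ} (h : s ^ l • z = 0) (hl : l ≤ m) : s ^ m • z = 0 := by
  obtain ⟨k, rfl⟩ := Nat.exists_eq_add_of_le hl
  rw [add_comm, pow_add, mul_smul, h, smul_zero]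

theorem tR_surj' (X : TObj T) (i : Ix) {j j' : Ix} (v : j ⟶ j') (m : ℤ) (z' : TV K X i j')
    (hz : z' ∈ tgr (K.K i j').V (X.M i) m) : ∃ l : ℕ, ∀ l', l ≤ l' →
    ∃ z ∈ tgr (K.K i j).V (X.M i) m, T'.tau v (T'.s v) ^ l' • z' = tR K X (𝟙 i) v z := by
  obtain ⟨l, z, hz, e⟩ := tR_surj K X i v m z' hz
  refine ⟨l, fun l' hl => ?_⟩
  obtain ⟨k, rfl⟩ := Nat.exists_eq_add_of_le hl
  refine ⟨T'.s v ^ k • z, (ten (K.K i j) (X.M i)).gr_smul m _ _ hz, ?_⟩
  rw [tR_smul, ← e, map_pow, smul_smul, ← pow_add, add_comm]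

theorem phi_cart (X : TObj T) : Cart ((phi K).obj X) := by
  intro j j' v
  refine locQ_strict _ _ _ (((phi K).obj X).rho_d v) (((phi K).obj X).rho_smul v _) ?_ ?_
  · rintro ⟨z1, z2, z3⟩ h
    obtain ⟨l1, e1⟩ := tR_ker K X n v z1 (congrArg Prod.fst h)
    obtain ⟨l2, e2⟩ := tR_ker K X a v z2 (congrArg (fun x => x.2.1) h)
    obtain ⟨l3, e3⟩ := tR_ker K X b v z3 (congrArg (fun x => x.2.2) h)
    exact ⟨l1 + l2 + l3, ext3 (pow_kill e1 (by omega)) (pow_kill e2 (by omega))
      (pow_kill e3 (by omega))⟩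
  · rintro m ⟨z1, z2, z3⟩ ⟨h1, h2, h3⟩
    obtain ⟨l1, e1⟩ := tR_surj' K X n v m z1 h1
    obtain ⟨l2, e2⟩ := tR_surj' K X a v (m + 1) z2 h2
    obtain ⟨l3, e3⟩ := tR_surj' K X b v (m + 1) z3 h3
    obtain ⟨y1, g1, f1⟩ := e1 (l1 + l2 + l3) (by omega)
    obtain ⟨y2, g2, f2⟩ := e2 (l1 + l2 + l3) (by omega)
    obtain ⟨y3, g3, f3⟩ := e3 (l1 + l2 + l3) (by omega)
    exact ⟨l1 + l2 + l3, (y1, y2, y3), ⟨g1, g2, g3⟩, ext3 f1 f2 f3⟩

theorem phi_pc : (phi K).PC := fun X _ => phi_cart K X

end

end Vale.Agent.P286ET
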