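import Vale.Agent.P286ET.Phi

/-!
# The Cech resolution of a family
-/

namespace Vale.Agent.P286ET

open CategoryTheory Ix
open Vale.Agent.P286.H847 (GD)
open Vale.Agent.P286.H847.GD
open Vale.Agent.P286.H353

noncomputable section

section

variable {A B : Type} [CommRing A] [CommRing B] [Algebra ℂ A] [Algebra ℂ B]

/-- Restriction of scalars. -/
def rres (φ : A →ₐ[ℂ] B) (N : RG B) : RG A :=
  letI : Module A N.V := Module.compHom _ φ.toRingHom
  { toGD := N.toGD
    md := this
    tw := ⟨fun z r x => by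
      change φ (z • r) • x = z • φ r • x
      rw [map_smul, smul_assoc]⟩
    d_smul := fun r x => N.d_smul (φ r) x
    gr_smul := fun m r x hx => N.gr_smul m (φ r) x hx }

/-- Multiplication by an element of the ring. -/
def mulL (N : RG B) (y : B) : N.V →ₗ[ℂ] N.V where
  toFun x := y • x
  map_add' := smul_add y
  map_smul' z x := smul_comm y z x

end

variable {T : TDat Ix}

theorem tau_tau {i j k : Ix} (u : i ⟶ j) (v : j ⟶ k) (t : i ⟶ k) (r : T.R i) :
    T.tau v (T.tau u r) = T.tau t r := by rw [← T.tau_comp, hom_eq (u ≫ v) t]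

theorem eta_eta {i j k : Ix} (u : i ⟶ j) (v : j ⟶ k) (t : i ⟶ k) :
    T.tau v (T.eta u) + T.eta v = T.eta t := by rw [← T.eta_comp, hom_eq (u ≫ v) t]

theorem rho_rho (X : TObj T) {i j k : Ix} (u : i ⟶ j) (v : j ⟶ k) (t : i ⟶ k)
    (x : (X.M i).V) : X.rho v (X.rho u x) = X.rho t x := by
  rw [← X.rho_comp, hom_eq (u ≫ v) t]

theorem rho_self (X : TObj T) {i : Ix} (u : i ⟶ i) (x : (X.M i).V) : X.rho u x = x := by
  rw [hom_eq u (𝟙 i), X.rho_id]

/-- The connection on the intersection, seen from the chart `k`. -/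
def rD (X : TObj T) {k l : Ix} (t : k ⟶ l) : (X.M l).V →ₗ[ℂ] (X.M l).V :=
  X.D l + mulL (X.M l) (T.eta t)

theorem rD_apply (X : TObj T) {k l : Ix} (t : k ⟶ l) (x : (X.M l).V) :
    rD X t x = X.D l x + T.eta t • x := rfl

theorem rho_rD (X : TObj T) {k l l' : Ix} (t : k ⟶ l) (u : l ⟶ l') (t' : k ⟶ l')
    (x : (X.M l).V) : X.rho u (rD X t x) = rD X t' (X.rho u x) := by
  rw [rD_apply, rD_apply, map_add, X.rho_D, X.rho_smul, ← eta_eta t u t', add_smul]
  abel

/-- The direct image of the restriction to the chart `i`. -/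
def resO (i : Ix) (X : TObj T) : TObj T where
  M k := rres (T.tau (sr i k)) (X.M (sup i k))
  D k := rD X (sr i k)
  D_smul k r (x : (X.M (sup i k)).V) := by
    change rD X (sr i k) (T.tau (sr i k) r • x) =
      T.tau (sr i k) r • rD X (sr i k) x + T.tau (sr i k) (T.dd k r) • x
    rw [rD_apply, rD_apply, X.D_smul, T.tau_dd, smul_add, smul_comm (T.eta _)]
    abel
  D_d k (x : (X.M (sup i k)).V) := by
    change (X.M (sup i k)).d (rD X (sr i k) x) = rD X (sr i k) ((X.M (sup i k)).d x)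
    rw [rD_apply, rD_apply, map_add, X.D_d, RG.d_smul]
  D_gr k m x hx := add_mem (X.D_gr _ m x hx) ((X.M (sup i k)).gr_smul m _ x hx)
  e k := X.e (sup i k)
  e_smul k r x := X.e_smul _ (T.tau (sr i k) r) x
  e_d k := X.e_d _
  e_gr k := X.e_gr _
  e_e k := X.e_e _
  D_e k (x : (X.M (sup i k)).V) := by
    change rD X (sr i k) (X.e _ x) = X.e _ (rD X (sr i k) x)
    rw [rD_apply, rD_apply, map_add, X.D_e, X.e_smul]
  w k := X.w (sup i k)
  w_smul k r (x : (X.M (sup i k)).V) := by
    change X.w _ (T.tau (sr i k) r • x) = T.tau (sr i k) (T.w k r) • X.w _ x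
    rw [X.w_smul, T.tau_w]
  w_d k := X.w_d _
  w_gr k := X.w_gr _
  w_w k := X.w_w _
  w_D k (x : (X.M (sup i k)).V) := by
    change X.w _ (rD X (sr i k) x) = -(rD X (sr i k) (X.w _ x))
    rw [rD_apply, rD_apply, map_add, X.w_D, X.w_smul, T.w_eta, neg_smul, neg_add]
  w_e k := X.w_e _
  rho v := X.rho (sm (𝟙 i) v)
  rho_id k x := rho_self X _ x
  rho_comp v v' x := (rho_rho X _ _ _ x).symm
  rho_smul {k k'} v r (x : (X.M (sup i k)).V) := by
    change X.rho (sm (𝟙 i) v) (T.tau (sr i k) r • x) =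
      T.tau (sr i k') (T.tau v r) • X.rho (sm (𝟙 i) v) x
    rw [X.rho_smul, tau_tau _ _ (v ≫ sr i k'), T.tau_comp]
  rho_d v := X.rho_d _
  rho_gr v := X.rho_gr _
  rho_D {k k'} v (x : (X.M (sup i k)).V) := by
    change X.rho (sm (𝟙 i) v) (rD X (sr i k) x) = rD X (sr i k') (X.rho (sm (𝟙 i) v) x) +
      T.tau (sr i k') (T.eta v) • X.rho (sm (𝟙 i) v) x
    rw [rho_rD X _ _ (v ≫ sr i k'), rD_apply, rD_apply, T.eta_comp, add_smul]
    abel
  rho_e v := X.rho_e _
  rho_w v := X.rho_w _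

/-- The induced cochain. -/
def resCo (i : Ix) {X Y : TObj T} {p : ℤ} (α : Co X Y p) : Co (resO i X) (resO i Y) p :=
  Co.mk (fun k => α.f (sup i k))
    ⟨fun k => α.isCo.deg _, fun k r x => α.isCo.lin _ (T.tau (sr i k) r) x,
      fun k (x : (X.M (sup i k)).V) => by
        change α.f _ (rD X (sr i k) x) = rD Y (sr i k) (α.f _ x)
        rw [rD_apply, rD_apply, map_add, α.isCo.D, α.isCo.lin],
      fun k => α.isCo.e _, fun k => α.isCo.w _, fun v => α.isCo.rho _⟩

/-- The functor. -/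
def resF (T : TDat Ix) (i : Ix) : TF T T where
  obj := resO i
  map _ :=
    { toFun := resCo i
      map_add' := fun _ _ => rfl
      map_smul' := fun _ _ => rfl }
  map_one _ _ _ := rfl
  map_comp _ _ _ _ _ := rfl
  map_dl _ _ _ _ := rfl

/-- The restriction to the intersection. -/
def resN (T : TDat Ix) (i : Ix) : NT (resF T i) (resF T n) where
  app X :=
    { co := Co.mk (fun k => X.rho (sm (tn i) (𝟙 k)))
        ⟨fun k m x hx => by
            rw [add_zero]
            exact X.rho_gr _ m x hx,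
          fun k r (x : (X.M (sup i k)).V) => by
            change X.rho (sm (tn i) (𝟙 k)) (T.tau (sr i k) r • x) =
              T.tau (sr n k) r • X.rho (sm (tn i) (𝟙 k)) x
            rw [X.rho_smul, tau_tau _ _ (sr n k)],
          fun k x => rho_rD X _ _ _ x,
          fun k (x : (X.M (sup i k)).V) => (X.rho_e _ x).trans (by
            rw [Int.negOnePow_zero, Units.val_one, one_smul]; rfl),
          fun k => X.rho_w _,
          fun {k k'} v x => (rho_rho X _ _ (sm (tn i) v) x).trans (rho_rho X _ _ _ x).symm⟩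
      cl := fun k => X.rho_d _ }
  nat p α k x := (α.isCo.rho _ x).symm

/-- The Cech resolution. -/
def cee (T : TDat Ix) : TF T T := ceF (resN T a) (resN T b)

/-- The elements of the Cech resolution. -/
abbrev CV (X : TObj T) (k : Ix) : Type :=
  (X.M (sup n k)).V × (X.M (sup a k)).V × (X.M (sup b k)).V

/-- The diagonal map. -/
def unL (X : TObj T) (k : Ix) : (X.M k).V →ₗ[ℂ] CV X k :=
  LinearMap.prod 0 (LinearMap.prod (X.rho (sr a k)) (X.rho (sr b k)))

theorem unL_apply (X : TObj T) (k : Ix) (x : (X.M k).V) :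
    unL X k x = (0, X.rho (sr a k) x, X.rho (sr b k) x) := rfl

theorem rho_D' (X : TObj T) {k l : Ix} (t : k ⟶ l) (x : (X.M k).V) :
    X.rho t (X.D k x) = rD X t (X.rho t x) := X.rho_D t x

/-- The augmentation of the Cech resolution. -/
def unN (T : TDat Ix) : NT (shF 1 T) (cee T) where
  app X :=
    { co := Co.mk (fun k => unL X k)
        ⟨fun k m x hx => by
            rw [add_zero]
            exact ⟨zero_mem _, X.rho_gr _ _ x hx, X.rho_gr _ _ x hx⟩,
          fun k r x => ext3 (smul_zero (A := (X.M (sup n k)).V) (T.tau (sr n k) r)).symm (X.rho_smul _ r x)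
            (X.rho_smul _ r x),
          fun k x => ext3 (map_zero (rD X (sr n k))).symm (rho_D' X _ x) (rho_D' X _ x),
          fun k (x : (X.M k).V) => by
            rw [Int.negOnePow_zero, Units.val_one, one_smul]
            refine ext3 (map_zero (X.e (sup n k))).symm ?_ ?_
            · change X.rho (sr a k) (-(X.e k x)) = -(X.e _ (X.rho (sr a k) x))
              rw [map_neg, X.rho_e]
            · change X.rho (sr b k) (-(X.e k x)) = -(X.e _ (X.rho (sr b k) x))
              rw [map_neg, X.rho_e],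
          fun k x => ext3 (map_zero (X.w (sup n k))).symm (X.rho_w _ x) (X.rho_w _ x),
          fun {k k'} v x => ext3 (map_zero (X.rho (sm (𝟙 n) v))).symm
            ((rho_rho X _ _ (v ≫ sr a k') x).trans (rho_rho X _ _ _ x).symm)
            ((rho_rho X _ _ (v ≫ sr b k') x).trans (rho_rho X _ _ _ x).symm)⟩
      cl := fun k (x : (X.M k).V) => by
        refine ext3 ?_ ?_ ?_
        · change 0 = (X.M (sup n k)).d 0 + (X.rho (sm (tn a) (𝟙 k)) (X.rho (sr a k) x) -
            X.rho (sm (tn b) (𝟙 k)) (X.rho (sr b k) x))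
          rw [rho_rho X _ _ (sr n k), rho_rho X _ _ (sr n k), map_zero, sub_self, add_zero]
        · change X.rho (sr a k) (-((X.M k).d x)) = -((X.M _).d (X.rho (sr a k) x))
          rw [map_neg, X.rho_d]
        · change X.rho (sr b k) (-((X.M k).d x)) = -((X.M _).d (X.rho (sr b k) x))
          rw [map_neg, X.rho_d] }
  nat {X Y} p α k (x : (X.M k).V) := by
    refine ext3 (map_zero (α.f (sup n k))).symm ?_ ?_
    · change Y.rho (sr a k) (((p.negOnePow : ℤ) : ℂ) • α.f k x) =
        (p.negOnePow : ℤ) • α.f _ (X.rho (sr a k) x)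
      rw [Int.cast_smul_eq_zsmul, map_zsmul, α.isCo.rho]
    · change Y.rho (sr b k) (((p.negOnePow : ℤ) : ℂ) • α.f k x) =
        (p.negOnePow : ℤ) • α.f _ (X.rho (sr b k) x)
      rw [Int.cast_smul_eq_zsmul, map_zsmul, α.isCo.rho]

/-- The transition map as a morphism. -/
def rhoH (X : TObj T) {i j : Ix} (u : i ⟶ j) : Hom (X.M i).toGD (X.M j).toGD :=
  ⟨X.rho u, X.rho_d u, X.rho_gr u⟩

/-- The diagonal morphism. -/
def diaH (X : TObj T) (k : Ix) :
    Hom (X.M k).toGD (gprod (X.M (sup a k)).toGD (X.M (sup b k)).toGD) :=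
  ⟨LinearMap.prod (X.rho (sr a k)) (X.rho (sr b k)),
    fun x => Prod.ext (X.rho_d _ x) (X.rho_d _ x),
    fun m x hx => ⟨X.rho_gr _ m x hx, X.rho_gr _ m x hx⟩⟩

theorem dia_ses (X : TObj T) (k : Ix) : GSes (diaH X k)
    (gdel (rhoH X (sm (tn a) (𝟙 k))) (rhoH X (sm (tn b) (𝟙 k)))) := by
  have h0 : ∀ x : (X.M k).V, X.rho (sm (tn a) (𝟙 k)) (X.rho (sr a k) x) -
      X.rho (sm (tn b) (𝟙 k)) (X.rho (sr b k) x) = 0 := fun x => by
    rw [rho_rho X _ _ (sr n k), rho_rho X _ _ (sr n k), sub_self]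
  cases k with
  | a =>
    refine ⟨h0, fun m x _ h => (rho_self X (sr a a) x).symm.trans (congrArg Prod.fst h), ?_, ?_⟩
    · rintro m ⟨y, y'⟩ hy h
      refine ⟨y, hy.1, Prod.ext (rho_self X (sr a a) y).symm ?_⟩
      have h1 := sub_eq_zero.1 h
      exact ((rho_self X (i := n) (sm (tn b) (𝟙 a)) y').symm.trans h1.symm)
    · intro m z hz
      refine ⟨(0, -z), ⟨zero_mem _, neg_mem hz⟩, ?_⟩
      have h1 : X.rho (sm (tn b) (𝟙 a)) (-z) = -z := rho_self X (i := n) _ (-z)
      change X.rho (sm (tn a) (𝟙 a)) 0 - X.rho (sm (tn b) (𝟙 a)) (-z) = z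
      rw [map_zero, h1, zero_sub, neg_neg]
  | b =>
    refine ⟨h0, fun m x _ h => (rho_self X (sr b b) x).symm.trans (congrArg Prod.snd h), ?_, ?_⟩
    · rintro m ⟨y, y'⟩ hy h
      refine ⟨y', hy.2, Prod.ext ?_ (rho_self X (sr b b) y').symm⟩
      have h1 := sub_eq_zero.1 h
      exact ((rho_self X (i := n) (sm (tn a) (𝟙 b)) y).symm.trans h1)
    · intro m z hz
      refine ⟨(z, 0), ⟨hz, zero_mem _⟩, ?_⟩
      change X.rho (sm (tn a) (𝟙 b)) z - X.rho (sm (tn b) (𝟙 b)) 0 = z
      rw [map_zero, sub_zero]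
      exact rho_self X (i := n) _ z
  | n =>
    refine ⟨h0, fun m x _ h => (rho_self X (sr a n) x).symm.trans (congrArg Prod.fst h), ?_, ?_⟩
    · rintro m ⟨y, y'⟩ hy h
      refine ⟨y, hy.1, Prod.ext (rho_self X (sr a n) y).symm ?_⟩
      have h1 := sub_eq_zero.1 h
      exact ((rho_self X (i := n) (sm (tn b) (𝟙 n)) y').symm.trans h1.symm)
    · intro m z hz
      refine ⟨(z, 0), ⟨hz, zero_mem _⟩, ?_⟩
      change X.rho (sm (tn a) (𝟙 n)) z - X.rho (sm (tn b) (𝟙 n)) 0 = z
      rw [map_zero, sub_zero]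
      exact rho_self X (i := n) _ z

theorem un_qis (X : TObj T) (k : Ix) : Qis (((unN T).app X).gd k) :=
  (dia_ses X k).qis_sub _ (fun _ => rfl)

theorem cee_pc : (cee T).PC := fun X hX =>
  Cart.of_qis (shF_pc 1 X hX) ((unN T).app X) (un_qis X)

end

end Vale.Agent.P286ET
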