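import Vale.Agent.P286ET.Defs

/-!
# Kernels, pairings, and the statements of the Fourier-Mukai block
-/

namespace Vale.Agent.P286ET

open CategoryTheory TensorProduct Ix

noncomputable section

section TL

variable {A K M P : Type} [CommRing A] [Algebra ℂ A] [AddCommGroup K] [Module ℂ K] [Module A K]
  [IsScalarTower ℂ A K] [AddCommGroup M] [Module ℂ M] [Module A M] [AddCommGroup P] [Module ℂ P]
  (φ : K →ₗ[ℂ] M →ₗ[ℂ] P)

/-- The underlying biadditive map. -/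
def biadd : K →+ M →+ P :=
  AddMonoidHom.mk' (fun k => (φ k).toAddMonoidHom) (fun k k' => by
    ext m
    simp)

variable (h : ∀ (r : A) (k : K) (m : M), φ (r • k) m = φ k (r • m))

/-- The additive map on the tensor product. -/
def tlift0 : K ⊗[A] M →+ P := TensorProduct.liftAddHom (biadd φ) h

omit [Algebra ℂ A] [IsScalarTower ℂ A K] in
theorem tlift0_tmul (k : K) (m : M) : tlift0 φ h (k ⊗ₜ m) = φ k m :=
  TensorProduct.liftAddHom_tmul (biadd φ) h k m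

/-- A `ℂ`-bilinear map which is balanced over `A` defines a map on the tensor product. -/
def tlift : K ⊗[A] M →ₗ[ℂ] P where
  toFun := tlift0 φ h
  map_add' := map_add _
  map_smul' c z := by
    induction z using TensorProduct.induction_on with
    | zero => simp
    | tmul k m =>
      rw [TensorProduct.smul_tmul', tlift0_tmul, tlift0_tmul, map_smul, LinearMap.smul_apply,
        RingHom.id_apply]
    | add z z' hz hz' => rw [smul_add, map_add, map_add, hz, hz', smul_add]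

theorem tlift_tmul (k : K) (m : M) : tlift φ h (k ⊗ₜ m) = φ k m := tlift0_tmul φ h k m

end TL

/-- The tensor product of two maps which are semilinear for the same ring map. -/
def tmap {A B K M K' M' : Type} [CommRing A] [Algebra ℂ A] [CommRing B] [Algebra ℂ B]
    [AddCommGroup K] [Module ℂ K] [Module A K] [IsScalarTower ℂ A K]
    [AddCommGroup M] [Module ℂ M] [Module A M]
    [AddCommGroup K'] [Module ℂ K'] [Module B K'] [IsScalarTower ℂ B K']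
    [AddCommGroup M'] [Module ℂ M'] [Module B M'] [IsScalarTower ℂ B M']
    (τ : A → B) (f : K →ₗ[ℂ] K') (g : M →ₗ[ℂ] M')
    (hf : ∀ (r : A) (k : K), f (r • k) = τ r • f k)
    (hg : ∀ (r : A) (m : M), g (r • m) = τ r • g m) : K ⊗[A] M →ₗ[ℂ] K' ⊗[B] M' :=
  tlift (LinearMap.mk₂ ℂ (fun k m => f k ⊗ₜ[B] g m)
    (fun k k' m => by rw [map_add, add_tmul])
    (fun c k m => by rw [map_smul, smul_tmul'])
    (fun k m m' => by rw [map_add, tmul_add])
    (fun c k m => by rw [map_smul, tmul_smul]))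
    (fun r k m => by
      rw [LinearMap.mk₂_apply, LinearMap.mk₂_apply, hf, hg, smul_tmul])

theorem tmap_tmul {A B K M K' M' : Type} [CommRing A] [Algebra ℂ A] [CommRing B] [Algebra ℂ B]
    [AddCommGroup K] [Module ℂ K] [Module A K] [IsScalarTower ℂ A K]
    [AddCommGroup M] [Module ℂ M] [Module A M]
    [AddCommGroup K'] [Module ℂ K'] [Module B K'] [IsScalarTower ℂ B K']
    [AddCommGroup M'] [Module ℂ M'] [Module B M'] [IsScalarTower ℂ B M']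
    (τ : A → B) (f : K →ₗ[ℂ] K') (g : M →ₗ[ℂ] M')
    (hf : ∀ (r : A) (k : K), f (r • k) = τ r • f k)
    (hg : ∀ (r : A) (m : M), g (r • m) = τ r • g m) (k : K) (m : M) :
    tmap τ f g hf hg (k ⊗ₜ m) = f k ⊗ₜ g m := tlift_tmul _ _ k m

/-- A bimodule over two commutative algebras. -/
structure BM (A B : Type) [CommRing A] [CommRing B] [Algebra ℂ A] [Algebra ℂ B] : Type 1 where
  V : Type
  [grp : AddCommGroup V]
  [mc : Module ℂ V]
  [ml : Module A V]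
  [mr : Module B V]
  [tl : IsScalarTower ℂ A V]
  [tr : IsScalarTower ℂ B V]
  [cm : SMulCommClass A B V]

attribute [instance] BM.grp BM.mc BM.ml BM.mr BM.tl BM.tr BM.cm

/-- A kernel. -/
structure Ker (T T' : TDat Ix) (c : ℂ) : Type 1 where
  K : ∀ i j : Ix, BM (T.R i) (T'.R j)
  flat : ∀ i j : Ix, Module.Flat (T.R i) (K i j).V
  r : ∀ {i i' j j' : Ix}, (i ⟶ i') → (j ⟶ j') → ((K i j).V →ₗ[ℂ] (K i' j').V)
  r_id : ∀ (i j : Ix) (k : (K i j).V), r (𝟙 i) (𝟙 j) k = k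
  r_comp : ∀ {i i' i'' j j' j'' : Ix} (u : i ⟶ i') (u' : i' ⟶ i'') (v : j ⟶ j') (v' : j' ⟶ j'')
    (k : (K i j).V), r (u ≫ u') (v ≫ v') k = r u' v' (r u v k)
  r_l : ∀ {i i' j j' : Ix} (u : i ⟶ i') (v : j ⟶ j') (x : T.R i) (k : (K i j).V),
    r u v (x • k) = T.tau u x • r u v k
  r_r : ∀ {i i' j j' : Ix} (u : i ⟶ i') (v : j ⟶ j') (y : T'.R j) (k : (K i j).V),
    r u v (y • k) = T'.tau v y • r u v k
  D : ∀ i j : Ix, (K i j).V →ₗ[ℂ] (K i j).V
  D_l : ∀ (i j : Ix) (x : T.R i) (k : (K i j).V),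
    D i j (x • k) = x • D i j k + c • (T.dd i x • k)
  D_r : ∀ (i j : Ix) (y : T'.R j) (k : (K i j).V),
    D i j (y • k) = y • D i j k + T'.dd j y • k
  r_D : ∀ {i i' j j' : Ix} (u : i ⟶ i') (v : j ⟶ j') (k : (K i j).V),
    r u v (D i j k) = D i' j' (r u v k) + T'.eta v • r u v k - c • (T.eta u • r u v k)
  w : ∀ i j : Ix, (K i j).V →ₗ[ℂ] (K i j).V
  w_l : ∀ (i j : Ix) (x : T.R i) (k : (K i j).V), w i j (x • k) = T.w i x • w i j k
  w_r : ∀ (i j : Ix) (y : T'.R j) (k : (K i j).V), w i j (y • k) = T'.w j y • w i j k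
  w_w : ∀ (i j : Ix) (k : (K i j).V), w i j (w i j k) = k
  w_D : ∀ (i j : Ix) (k : (K i j).V), w i j (D i j k) = - D i j (w i j k)
  r_w : ∀ {i i' j j' : Ix} (u : i ⟶ i') (v : j ⟶ j') (k : (K i j).V),
    r u v (w i j k) = w i' j' (r u v k)
  loc_inj : ∀ (i : Ix) {j j' : Ix} (v : j ⟶ j'), Function.Injective (r (𝟙 i) v)
  loc_surj : ∀ (i : Ix) {j j' : Ix} (v : j ⟶ j') (k' : (K i j').V),
    ∃ (m : ℕ) (k : (K i j).V), T'.tau v (T'.s v) ^ m • k' = r (𝟙 i) v k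

section Pair

variable {T T' : TDat Ix} {c c' : ℂ} (K : Ker T T' c) (L : Ker T' T c')

/-- The composition of the kernels on the chart `j`. -/
abbrev XX (i j k : Ix) : Type := (K.K i j).V ⊗[T'.R j] (L.K j k).V

/-- The restriction. -/
def xr (i j k : Ix) : XX K L i j k →ₗ[ℂ] XX K L i n k :=
  tmap (T'.tau (tn j)) (K.r (𝟙 i) (tn j)) (L.r (tn j) (𝟙 k)) (K.r_r _ _) (L.r_l _ _)

/-- A pairing which identifies the composition of the kernels with the diagonal. -/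
structure Pair where
  cc : c * c' = 1
  p : ∀ i k : Ix, (K.K i n).V →ₗ[ℂ] (L.K n k).V →ₗ[ℂ] T.R (sup i k)
  p_l : ∀ (i k : Ix) (x : T.R i) (κ : (K.K i n).V) (l : (L.K n k).V),
    p i k (x • κ) l = T.tau (sl i k) x * p i k κ l
  p_m : ∀ (i k : Ix) (y : T'.R n) (κ : (K.K i n).V) (l : (L.K n k).V),
    p i k (y • κ) l = p i k κ (y • l)
  p_r : ∀ (i k : Ix) (x : T.R k) (κ : (K.K i n).V) (l : (L.K n k).V),
    p i k κ (x • l) = T.tau (sr i k) x * p i k κ l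
  p_res : ∀ {i i' k k' : Ix} (u : i ⟶ i') (v : k ⟶ k') (κ : (K.K i n).V) (l : (L.K n k).V),
    p i' k' (K.r u (𝟙 n) κ) (L.r (𝟙 n) v l) = T.tau (sm u v) (p i k κ l)
  p_D : ∀ (i k : Ix) (κ : (K.K i n).V) (l : (L.K n k).V),
    p i k κ (L.D n k l) + c' • p i k (K.D i n κ) l + T.eta (sl i k) * p i k κ l =
      T.dd _ (p i k κ l) + T.eta (sr i k) * p i k κ l
  p_w : ∀ (i k : Ix) (κ : (K.K i n).V) (l : (L.K n k).V),
    p i k (K.w i n κ) (L.w n k l) = T.w _ (p i k κ l)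
  p_a : ∀ (i k : Ix) (κ : (K.K i a).V) (l : (L.K a k).V),
    p i k (K.r (𝟙 i) (tn a) κ) (L.r (tn a) (𝟙 k) l) = 0
  p_b : ∀ (i k : Ix) (κ : (K.K i b).V) (l : (L.K b k).V),
    p i k (K.r (𝟙 i) (tn b) κ) (L.r (tn b) (𝟙 k) l) = 0
  inj : ∀ (i k : Ix) (x : XX K L i a k) (y : XX K L i b k),
    xr K L i a k x = xr K L i b k y → x = 0 ∧ y = 0
  mid : ∀ (i k : Ix) (z : XX K L i n k), tlift (p i k) (p_m i k) z = 0 →
    ∃ (x : XX K L i a k) (y : XX K L i b k), z = xr K L i a k x - xr K L i b k y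
  surj : ∀ i k : Ix, Function.Surjective (tlift (p i k) (p_m i k) : XX K L i n k → _)

end Pair

/-- The abstract Fourier-Mukai equivalence. -/
def FMA : Prop := ∀ (T T' : TDat Ix) (c c' : ℂ) (K₁ K₂ : Ker T T' c) (L : Ker T' T c'),
  Pair K₁ L → Pair L K₂ → TEq T T'

/-- The cohomology of the structure sheaf is that of an elliptic curve; `h` is a generator. -/
structure Tr (T : TDat Ix) (h : T.R n) where
  tr : T.R n →ₗ[ℂ] ℂ
  tr_a : ∀ r : T.R a, tr (T.tau (tn a) r) = 0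
  tr_b : ∀ r : T.R b, tr (T.tau (tn b) r) = 0
  tr_h : tr h = 1
  tr_ker : ∀ r : T.R n, tr r = 0 →
    ∃ (x : T.R a) (y : T.R b), r = T.tau (tn a) x - T.tau (tn b) y
  tr_dd : ∀ r : T.R n, tr (T.dd n r) = 0
  tr_w : ∀ r : T.R n, tr (T.w n r) = - tr r
  h0 : ∀ (x : T.R a) (y : T.R b), T.tau (tn a) x = T.tau (tn b) y →
    ∃ z : ℂ, x = algebraMap ℂ _ z

/-- An isomorphism between the underlying diagrams of rings with vector field and involution. -/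
structure Kap (T T' : TDat Ix) (ν : ℂ) where
  k : ∀ i : Ix, T.R i ≃ₐ[ℂ] T'.R i
  k_tau : ∀ {i j : Ix} (u : i ⟶ j) (r : T.R i), k j (T.tau u r) = T'.tau u (k i r)
  k_dd : ∀ (i : Ix) (r : T.R i), T'.dd i (k i r) = ν • k i (T.dd i r)
  k_w : ∀ (i : Ix) (r : T.R i), k i (T.w i r) = T'.w i (k i r)

/-- A ring of functions on the square, which may have poles along the diagonal. -/
structure Sq (T T' : TDat Ix) : Type 1 where
  Q : Type
  [cr : CommRing Q]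
  [alg : Algebra ℂ Q]
  i1 : T.R n →ₐ[ℂ] Q
  i2 : T'.R n →ₐ[ℂ] Q
  inj : Function.Injective (Algebra.TensorProduct.productMap i1 i2)
  d1 : Derivation ℂ Q Q
  d2 : Derivation ℂ Q Q
  d11 : ∀ r, d1 (i1 r) = i1 (T.dd n r)
  d12 : ∀ r, d1 (i2 r) = 0
  d21 : ∀ r, d2 (i1 r) = 0
  d22 : ∀ r, d2 (i2 r) = i2 (T'.dd n r)
  w : Q →ₐ[ℂ] Q
  w_w : ∀ q, w (w q) = q
  w_1 : ∀ r, w (i1 r) = i1 (T.w n r)
  w_2 : ∀ r, w (i2 r) = i2 (T'.w n r)
  w_d1 : ∀ q, w (d1 q) = - d1 (w q)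
  w_d2 : ∀ q, w (d2 q) = - d2 (w q)

attribute [instance] Sq.cr Sq.alg

variable {T T' : TDat Ix}

/-- Functions on the product of two charts. -/
def Sq.emb (S : Sq T T') (i j : Ix) : T.R i ⊗[ℂ] T'.R j →ₐ[ℂ] S.Q :=
  Algebra.TensorProduct.productMap (S.i1.comp (T.tau (tn i))) (S.i2.comp (T'.tau (tn j)))

/-- The restriction to the diagonal. -/
def Kap.mul (κ : Kap T T' 1) (i j : Ix) : T.R i ⊗[ℂ] T'.R j →ₐ[ℂ] T.R n :=
  Algebra.TensorProduct.productMap (T.tau (tn i))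
    (((κ.k n).symm : T'.R n →ₐ[ℂ] T.R n).comp (T'.tau (tn j)))

/-- The function `G - h_i(1) + h_j(2)`. -/
def Sq.Gf (S : Sq T T') (κ : Kap T T' 1) (G : S.Q) (h : Ix → T.R n) (i j : Ix) : S.Q :=
  G - S.i1 (h i) + S.i2 (κ.k n (h j))

/-- The data which define the kernels `O(Δ)` and `O(-Δ)`. -/
structure Mg (T T' : TDat Ix) : Type 1 where
  κ : Kap T T' 1
  inj : ∀ i : Ix, Function.Injective (T.tau (tn i))
  gen : ∀ r : T.R n, ∃ ξ : T.R a ⊗[ℂ] T'.R b, κ.mul a b ξ = r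
  h : Ix → T.R n
  w_h : ∀ i : Ix, T.w n (h i) = - h i
  tr : Tr T (h b - h a)
  S : Sq T T'
  G : S.Q
  w_G : S.w G = - G
  IG : ∀ (i j : Ix) (ξ : T.R i ⊗[ℂ] T'.R j), κ.mul i j ξ = 0 →
    ∃ ζ, S.emb i j ζ = S.emb i j ξ * S.Gf κ G h i j ∧
      κ.mul i j ζ = κ.mul i j (LinearMap.lTensor _ (T'.dd j).toLinearMap ξ)
  one : ∀ i j : Ix, ∃ ξ ζ : T.R i ⊗[ℂ] T'.R j, κ.mul i j ξ = 0 ∧
    S.emb i j ζ = S.emb i j ξ * S.Gf κ G h i j ∧ κ.mul i j ζ = 1
  dG : ∀ i j : Ix, ∃ ζ, S.d1 (S.Gf κ G h i j) + S.d2 (S.Gf κ G h i j) = S.emb i j ζ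
  GG : ∀ i j : Ix, ∃ α β, S.d2 (S.Gf κ G h i j) + S.Gf κ G h i j * S.Gf κ G h i j =
    S.emb i j α + S.emb i j β * S.Gf κ G h i j

/-- The kernels and the pairings. -/
def MUK : Prop := ∀ (T T' : TDat Ix) (c : ℂ) (g : Mg T T'), c ≠ 0 →
  (∀ i : Ix, T.eta (tn i) = ((1 - c) / c) • (g.h i - g.h n)) →
  (∀ i : Ix, T'.eta (tn i) = (1 - c) • g.κ.k n (g.h i - g.h n)) →
  ∃ (K₁ K₂ : Ker T T' c) (L : Ker T' T c⁻¹), Nonempty (Pair K₁ L) ∧ Nonempty (Pair L K₂)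

/-- The diagram is the cover of the curve `y² = x (x² + p x + q)` by the complement of the origin
and the complement of the points of order two, and `dd = ν y d/dx`. -/
structure EllD (T : TDat Ix) (p q ν : ℂ) where
  x : T.R a
  y : T.R a
  u : T.R b
  t : T.R b
  gi : T.R b
  eqn : y ^ 2 = x * (x ^ 2 + p • x + algebraMap ℂ _ q)
  gen_a : Algebra.adjoin ℂ {x, y} = ⊤
  free : ∀ P Q : Polynomial ℂ, Polynomial.aeval x P + Polynomial.aeval x Q * y = 0 → P = 0 ∧ Q = 0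
  away_a : IsAway (T.tau (tn a)) y
  gi_mul : gi * (u ^ 2 + p • u + algebraMap ℂ _ q) = 1
  gen_b : Algebra.adjoin ℂ {u, t, gi} = ⊤
  inj_b : Function.Injective (T.tau (tn b))
  tau_u : T.tau (tn b) u * T.tau (tn a) x = algebraMap ℂ _ q
  tau_t : T.tau (tn b) t * T.tau (tn a) x ^ 2 = - (q • T.tau (tn a) y)
  dd_x : T.dd a x = ν • y
  dd_y : (2 : ℂ) • T.dd a y = ν • ((3 : ℂ) • x ^ 2 + (2 * p) • x + algebraMap ℂ _ q)
  w_x : T.w a x = x
  w_y : T.w a y = - y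

variable {p q ν : ℂ}

/-- The function `-y / (2 x)`. -/
def EllD.hb (E : EllD T p q ν) : T.R n :=
  (-(2 * q)⁻¹) • (T.tau (tn a) E.y * T.tau (tn b) E.u)

/-- The functions `h_a = h_n = 0`, `h_b = -y / (2 x)`. -/
def EllD.h (E : EllD T p q ν) : Ix → T.R n
  | b => E.hb
  | _ => 0

/-- The class of the twisting cocycle is `l`. -/
def EllD.Lev (E : EllD T p q ν) (l : ℂ) : Prop :=
  ∃ (r : T.R a) (r' : T.R b),
    T.eta (tn b) - T.eta (tn a) = (l * ν) • E.hb + T.tau (tn a) r + T.tau (tn b) r'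

/-- The cohomology of the structure sheaf. -/
def TRC : Prop := ∀ (T : TDat Ix) (p q ν : ℂ) (E : EllD T p q ν), q ≠ 0 → p ^ 2 - 4 * q ≠ 0 →
  Nonempty (Tr T E.hb)

/-- The comparison of two models. -/
def KAP : Prop := ∀ (T T' : TDat Ix) (p q ν ν' : ℂ) (E : EllD T p q ν) (E' : EllD T' p q ν'),
  q ≠ 0 → ν ≠ 0 → ∃ κ : Kap T T' (ν' / ν), κ.k a E.x = E'.x ∧ κ.k a E.y = E'.y ∧
    κ.k b E.u = E'.u ∧ κ.k b E.t = E'.t

/-- The data for the elliptic curve. -/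
def ELL : Prop := ∀ (T T' : TDat Ix) (p q : ℂ) (E : EllD T p q 1) (E' : EllD T' p q 1),
  q ≠ 0 → p ^ 2 - 4 * q ≠ 0 → ∃ g : Mg T T', g.h = E.h ∧ ∀ i : Ix, g.κ.k n (E.h i) = E'.h i

/-- The Fourier-Mukai equivalence for twisted differential modules on an elliptic curve. -/
def FMT : Prop := ∀ (T T' : TDat Ix) (p q ν ν' l l' : ℂ) (m m' : ℤ) (E : EllD T p q ν)
  (E' : EllD T' p q ν'), q ≠ 0 → p ^ 2 - 4 * q ≠ 0 → ν ≠ 0 → ν' ≠ 0 → E.Lev l → E'.Lev l' →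
  (l + m) * (l' + m') = -1 → TEq T T'

/-- The reduction to the normalised situation. -/
def FIN : Prop := FMA → MUK → ELL → FMT

end

end Vale.Agent.P286ET
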