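import Vale.Agent.P286ET.Spec
import Vale.Agent.P286ET.Gd

/-!
# Tensor products of graded differential modules with modules
-/

namespace Vale.Agent.P286ET

open TensorProduct
open Vale.Agent.P286.H847 (GD)
open Vale.Agent.P286.H847.GD

noncomputable section

variable {A B B' : Type} [CommRing A] [CommRing B] [CommRing B'] [Algebra ℂ A] [Algebra ℂ B]
  [Algebra ℂ B']

instance BM.cm' (K : BM A B) : SMulCommClass B A K.V := SMulCommClass.symm _ _ _

/-- The graded pieces as submodules. -/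
def RG.grR (M : RG A) (m : ℤ) : Submodule A M.V where
  carrier := M.gr m
  add_mem' := add_mem
  zero_mem' := zero_mem _
  smul_mem' r x hx := M.gr_smul m r x hx

/-- The differential as a linear map. -/
def RG.dR (M : RG A) : M.V →ₗ[A] M.V where
  toFun := M.d
  map_add' := map_add _
  map_smul' := M.d_smul

/-- The differential on the graded pieces. -/
def RG.dg (M : RG A) {m k : ℤ} (h : k = m + 1) : M.grR m →ₗ[A] M.grR k :=
  M.dR.restrict (fun _ hx => M.dgr' h hx)

/-- The product. -/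
abbrev rprod (M N : RG A) : RG A where
  toGD := gprod M.toGD N.toGD
  md := Prod.instModule
  tw := Prod.isScalarTower
  d_smul r x := Prod.ext (M.d_smul r x.1) (N.d_smul r x.2)
  gr_smul m r _ hx := ⟨M.gr_smul m r _ hx.1, N.gr_smul m r _ hx.2⟩

/-- The cone. -/
abbrev rcone {M N : RG A} (u : Hom M.toGD N.toGD) (hu : ∀ (r : A) x, u.f (r • x) = r • u.f x) :
    RG A where
  toGD := Cone u
  md := Prod.instModule
  tw := Prod.isScalarTower
  d_smul r x := by
    refine Prod.ext ?_ ?_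
    · change N.d (r • x.1) + u.f (r • x.2) = r • (N.d x.1 + u.f x.2)
      rw [N.d_smul, hu, smul_add]
    · change -(M.d (r • x.2)) = r • -(M.d x.2)
      rw [M.d_smul, smul_neg]
  gr_smul m r _ hx := ⟨N.gr_smul m r _ hx.1, M.gr_smul _ r _ hx.2⟩

/-- The shift. -/
abbrev rsh (s : ℤ) (M : RG A) : RG A where
  toGD := gsh s M.toGD
  md := M.md
  tw := M.tw
  d_smul r x := by
    change -(M.d (r • x)) = r • -(M.d x)
    rw [M.d_smul, smul_neg]
  gr_smul m r _ hx := M.gr_smul _ r _ hx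

section Gen

variable (X : Type) [AddCommGroup X] [Module ℂ X] [Module A X] [IsScalarTower ℂ A X]

/-- The graded pieces of the tensor product. -/
def tgr (M : RG A) (m : ℤ) : Submodule ℂ (X ⊗[A] M.V) :=
  (LinearMap.range ((M.grR m).subtype.lTensor X)).restrictScalars ℂ

variable {X}

theorem tgr_tmul {M : RG A} {m : ℤ} (k : X) {x : M.V} (hx : x ∈ M.gr m) :
    k ⊗ₜ[A] x ∈ tgr X M m := ⟨k ⊗ₜ ⟨x, hx⟩, rfl⟩

theorem tgr_ind {M : RG A} {m : ℤ} {P : X ⊗[A] M.V → Prop} {z : X ⊗[A] M.V} (hz : z ∈ tgr X M m)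
    (h0 : P 0) (h1 : ∀ k, ∀ x ∈ M.gr m, P (k ⊗ₜ x)) (h2 : ∀ z z', P z → P z' → P (z + z')) :
    P z := by
  obtain ⟨ξ, rfl⟩ := hz
  induction ξ using TensorProduct.induction_on with
  | zero => rwa [map_zero]
  | tmul k x => exact h1 k x.1 x.2
  | add ξ ξ' h h' => rw [map_add]; exact h2 _ _ h h'

theorem tgr_map {M : RG A} {m : ℤ} {P : Type} [AddCommGroup P] [Module ℂ P]
    (F : X ⊗[A] M.V →ₗ[ℂ] P) (S : Submodule ℂ P) (h : ∀ k, ∀ x ∈ M.gr m, F (k ⊗ₜ x) ∈ S)
    {z : X ⊗[A] M.V} (hz : z ∈ tgr X M m) : F z ∈ S :=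
  tgr_ind (P := fun z => F z ∈ S) hz (by rw [map_zero]; exact zero_mem _) h
    (fun z z' h h' => by rw [map_add]; exact add_mem h h')

theorem text {V P : Type} [AddCommGroup V] [Module A V] [AddCommGroup P] [Module ℂ P]
    {F G : X ⊗[A] V →ₗ[ℂ] P} (h : ∀ k x, F (k ⊗ₜ x) = G (k ⊗ₜ x)) (z : X ⊗[A] V) :
    F z = G z := by
  induction z using TensorProduct.induction_on with
  | zero => rw [map_zero, map_zero]
  | tmul k x => exact h k x
  | add z z' h h' => rw [map_add, map_add, h, h']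

variable (X) in
/-- The map induced by a linear map on the second factor. -/
def lt {V V' : Type} [AddCommGroup V] [Module ℂ V] [Module A V] [AddCommGroup V'] [Module ℂ V']
    [Module A V'] [IsScalarTower ℂ A V'] (g : V →ₗ[ℂ] V')
    (hg : ∀ (r : A) x, g (r • x) = r • g x) : X ⊗[A] V →ₗ[ℂ] X ⊗[A] V' :=
  tmap (A := A) (B := A) id LinearMap.id g (fun _ _ => rfl) hg

theorem lt_tmul {V V' : Type} [AddCommGroup V] [Module ℂ V] [Module A V] [AddCommGroup V']
    [Module ℂ V'] [Module A V'] [IsScalarTower ℂ A V'] (g : V →ₗ[ℂ] V')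
    (hg : ∀ (r : A) x, g (r • x) = r • g x) (k : X) (x : V) :
    lt X g hg (k ⊗ₜ x) = k ⊗ₜ g x := tmap_tmul _ _ _ _ _ k x

section Prod

variable (X) (A) (V W : Type) [AddCommGroup V] [Module ℂ V] [Module A V] [IsScalarTower ℂ A V]
  [AddCommGroup W] [Module ℂ W] [Module A W] [IsScalarTower ℂ A W]

/-- The first projection. -/
def tp1 : X ⊗[A] (V × W) →ₗ[ℂ] X ⊗[A] V := lt X (LinearMap.fst ℂ V W) (fun _ _ => rfl)

/-- The second projection. -/
def tp2 : X ⊗[A] (V × W) →ₗ[ℂ] X ⊗[A] W := lt X (LinearMap.snd ℂ V W) (fun _ _ => rfl)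

/-- The first inclusion. -/
def ti1 : X ⊗[A] V →ₗ[ℂ] X ⊗[A] (V × W) := lt X (LinearMap.inl ℂ V W) (fun r x => by simp)

/-- The second inclusion. -/
def ti2 : X ⊗[A] W →ₗ[ℂ] X ⊗[A] (V × W) := lt X (LinearMap.inr ℂ V W) (fun r x => by simp)

variable {X} {A} {V W}

omit [IsScalarTower ℂ A W] in
theorem tp1_tmul (k : X) (x : V × W) : tp1 A X V W (k ⊗ₜ x) = k ⊗ₜ x.1 := lt_tmul _ _ k x

omit [IsScalarTower ℂ A V] in
theorem tp2_tmul (k : X) (x : V × W) : tp2 A X V W (k ⊗ₜ x) = k ⊗ₜ x.2 := lt_tmul _ _ k x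

theorem ti1_tmul (k : X) (x : V) : ti1 A X V W (k ⊗ₜ x) = k ⊗ₜ (x, 0) := lt_tmul _ _ k x

theorem ti2_tmul (k : X) (x : W) : ti2 A X V W (k ⊗ₜ x) = k ⊗ₜ (0, x) := lt_tmul _ _ k x

theorem tp1_i1 (z : X ⊗[A] V) : tp1 A X V W (ti1 A X V W z) = z :=
  text (F := (tp1 A X V W).comp (ti1 A X V W)) (G := LinearMap.id) (fun k x => by
    rw [LinearMap.comp_apply, ti1_tmul, tp1_tmul, LinearMap.id_apply]) z

theorem tp1_i2 (z : X ⊗[A] W) : tp1 A X V W (ti2 A X V W z) = 0 :=
  text (F := (tp1 A X V W).comp (ti2 A X V W)) (G := 0) (fun k x => by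
    rw [LinearMap.comp_apply, ti2_tmul, tp1_tmul, tmul_zero, LinearMap.zero_apply]) z

theorem tp2_i1 (z : X ⊗[A] V) : tp2 A X V W (ti1 A X V W z) = 0 :=
  text (F := (tp2 A X V W).comp (ti1 A X V W)) (G := 0) (fun k x => by
    rw [LinearMap.comp_apply, ti1_tmul, tp2_tmul, tmul_zero, LinearMap.zero_apply]) z

theorem tp2_i2 (z : X ⊗[A] W) : tp2 A X V W (ti2 A X V W z) = z :=
  text (F := (tp2 A X V W).comp (ti2 A X V W)) (G := LinearMap.id) (fun k x => by
    rw [LinearMap.comp_apply, ti2_tmul, tp2_tmul, LinearMap.id_apply]) z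

theorem ti_tp (z : X ⊗[A] (V × W)) :
    ti1 A X V W (tp1 A X V W z) + ti2 A X V W (tp2 A X V W z) = z :=
  text (F := (ti1 A X V W).comp (tp1 A X V W) + (ti2 A X V W).comp (tp2 A X V W))
    (G := LinearMap.id) (fun k x => by
      rw [LinearMap.add_apply, LinearMap.comp_apply, LinearMap.comp_apply, tp1_tmul, tp2_tmul,
        ti1_tmul, ti2_tmul, ← tmul_add, LinearMap.id_apply]
      simp) z

end Prod

variable (X) in
/-- The tensor product. -/
abbrev tenG (M : RG A) : GD where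
  V := X ⊗[A] M.V
  d := lt X M.d M.d_smul
  dd z := by
    induction z using TensorProduct.induction_on with
    | zero => rw [map_zero, map_zero]
    | tmul k x => rw [lt_tmul, lt_tmul, M.dd, tmul_zero]
    | add z z' h h' => rw [map_add, map_add, h, h', add_zero]
  gr := tgr X M
  dgr m z hz := tgr_map _ _ (fun k x hx => by
    rw [lt_tmul]
    exact tgr_tmul k (M.dgr m x hx)) hz

theorem lt_sub {M : RG A} {m k : ℤ} (h : k = m + 1) (ξ : X ⊗[A] M.grR m) :
    lt X M.d M.d_smul ((M.grR m).subtype.lTensor X ξ) =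
      (M.grR k).subtype.lTensor X ((M.dg h).lTensor X ξ) := by
  induction ξ using TensorProduct.induction_on with
  | zero => simp only [map_zero]
  | tmul k x => rw [LinearMap.lTensor_tmul, lt_tmul]; rfl
  | add z z' h h' => simp only [map_add, h, h']

theorem tenG_exact [Module.Flat A X] {M : RG A} (hM : M.Exact) : (tenG X M).Exact := by
  rintro m _ ⟨ξ, rfl⟩ hd
  have h1 : m = m - 1 + 1 := by ring
  have ex : Function.Exact (M.dg h1) (M.dg (rfl : m + 1 = m + 1)) := by
    intro x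
    constructor
    · intro hx
      obtain ⟨y, hy, e⟩ := hM m x.1 x.2 (congrArg Subtype.val hx)
      exact ⟨⟨y, hy⟩, Subtype.ext e⟩
    · rintro ⟨y, rfl⟩
      exact Subtype.ext (M.dd y.1)
  have h2 : (M.dg (rfl : m + 1 = m + 1)).lTensor X ξ = 0 := by
    apply Module.Flat.lTensor_preserves_injective_linearMap (M := X) (M.grR (m + 1)).subtype
      Subtype.val_injective
    rw [← lt_sub, map_zero]
    exact hd
  obtain ⟨ξ', rfl⟩ := (Module.Flat.lTensor_exact X ex ξ).1 h2
  exact ⟨_, ⟨ξ', rfl⟩, lt_sub h1 ξ'⟩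

variable (X) in
/-- The induced morphism. -/
def tenH {M N : RG A} (u : Hom M.toGD N.toGD) (hu : ∀ (r : A) x, u.f (r • x) = r • u.f x) :
    Hom (tenG X M) (tenG X N) where
  f := lt X u.f hu
  comm z := by
    induction z using TensorProduct.induction_on with
    | zero => simp only [map_zero]
    | tmul k x => simp only [lt_tmul, u.comm]
    | add z z' h h' => simp only [map_add, h, h']
  deg m z hz := tgr_map _ _ (fun k x hx => by
    rw [lt_tmul]
    exact tgr_tmul k (u.deg m x hx)) hz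

theorem tenH_qis [Module.Flat A X] {M N : RG A} (u : Hom M.toGD N.toGD)
    (hu : ∀ (r : A) x, u.f (r • x) = r • u.f x) (h : Qis u) : Qis (tenH X u hu) := by
  rw [qis_iff_exact_cone] at h ⊢
  have hE : (tenG X (rcone u hu)).Exact := tenG_exact (M := rcone u hu) h
  have dt : ∀ (k : X) (x : N.V × M.V), (tenG X (rcone u hu)).d (k ⊗ₜ x) =
      k ⊗ₜ ((N.d x.1 + u.f x.2, -(M.d x.2)) : N.V × M.V) :=
    fun k x => lt_tmul (rcone u hu).d (rcone u hu).d_smul k x
  have ht : ∀ (k : X) (x : M.V), (tenH X u hu).f (k ⊗ₜ x) = k ⊗ₜ u.f x :=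
    fun k x => lt_tmul u.f hu k x
  have a1 : ∀ z, (tenG X (rcone u hu)).d (ti1 A X N.V M.V z) =
      ti1 A X N.V M.V ((tenG X N).d z) :=
    text (F := (tenG X (rcone u hu)).d.comp (ti1 A X N.V M.V))
      (G := (ti1 A X N.V M.V).comp (tenG X N).d) (fun k x => by
      rw [LinearMap.comp_apply, LinearMap.comp_apply, ti1_tmul, dt, lt_tmul, ti1_tmul]
      simp)
  have a2 : ∀ z, (tenG X (rcone u hu)).d (ti2 A X N.V M.V z) =
      ti1 A X N.V M.V ((tenH X u hu).f z) - ti2 A X N.V M.V ((tenG X M).d z) :=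
    text (F := (tenG X (rcone u hu)).d.comp (ti2 A X N.V M.V))
      (G := (ti1 A X N.V M.V).comp (tenH X u hu).f - (ti2 A X N.V M.V).comp (tenG X M).d)
      (fun k x => by
      rw [LinearMap.sub_apply, LinearMap.comp_apply, LinearMap.comp_apply, LinearMap.comp_apply,
        ti2_tmul, dt, ht, lt_tmul, ti1_tmul, ti2_tmul, ← tmul_sub]
      simp)
  have b1 : ∀ z, tp1 A X N.V M.V ((tenG X (rcone u hu)).d z) =
      (tenG X N).d (tp1 A X N.V M.V z) + (tenH X u hu).f (tp2 A X N.V M.V z) :=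
    text (F := (tp1 A X N.V M.V).comp (tenG X (rcone u hu)).d)
      (G := (tenG X N).d.comp (tp1 A X N.V M.V) + (tenH X u hu).f.comp (tp2 A X N.V M.V))
      (fun k x => by
      rw [LinearMap.add_apply, LinearMap.comp_apply, LinearMap.comp_apply, LinearMap.comp_apply,
        dt, tp1_tmul, tp1_tmul, tp2_tmul, ht, lt_tmul, ← tmul_add])
  have b2 : ∀ z, tp2 A X N.V M.V ((tenG X (rcone u hu)).d z) =
      -((tenG X M).d (tp2 A X N.V M.V z)) :=
    text (F := (tp2 A X N.V M.V).comp (tenG X (rcone u hu)).d)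
      (G := -((tenG X M).d.comp (tp2 A X N.V M.V))) (fun k x => by
      rw [LinearMap.neg_apply, LinearMap.comp_apply, LinearMap.comp_apply,
        dt, tp2_tmul, tp2_tmul, lt_tmul, ← tmul_neg])
  refine exact_retract (X := Cone (tenH X u hu)) (Y := tenG X (rcone u hu))
    ⟨(ti1 A X N.V M.V).coprod (ti2 A X N.V M.V), ?_, ?_⟩
    ⟨(tp1 A X N.V M.V).prod (tp2 A X N.V M.V), ?_, ?_⟩ ?_ hE
  · intro z
    rw [cone_d, LinearMap.coprod_apply, LinearMap.coprod_apply, map_add, map_neg, map_add, a1, a2]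
    abel
  · intro m z hz
    refine add_mem (tgr_map (ti1 A X N.V M.V) _ (fun k x hx => ?_) hz.1)
      (tgr_map (ti2 A X N.V M.V) _ (fun k x hx => ?_) hz.2)
    · rw [ti1_tmul]
      exact tgr_tmul (M := rcone u hu) k ⟨hx, zero_mem _⟩
    · rw [ti2_tmul]
      exact tgr_tmul (M := rcone u hu) k ⟨zero_mem _, hx⟩
  · intro z
    exact Prod.ext (b1 z) (b2 z)
  · intro m z hz
    refine ⟨tgr_map (M := rcone u hu) (tp1 A X N.V M.V) _ (fun k x hx => ?_) hz,
      tgr_map (M := rcone u hu) (tp2 A X N.V M.V) _ (fun k x hx => ?_) hz⟩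
    · rw [tp1_tmul]
      exact tgr_tmul k hx.1
    · rw [tp2_tmul]
      exact tgr_tmul k hx.2
  · intro z
    refine Prod.ext ?_ ?_
    · change tp1 A X N.V M.V (ti1 A X N.V M.V z.1 + ti2 A X N.V M.V z.2) = z.1
      rw [map_add, tp1_i1, tp1_i2, add_zero]
    · change tp2 A X N.V M.V (ti1 A X N.V M.V z.1 + ti2 A X N.V M.V z.2) = z.2
      rw [map_add, tp2_i1, tp2_i2, zero_add]

end Gen

theorem lt_smul (K : BM A B) {V V' : Type} [AddCommGroup V] [Module ℂ V] [Module A V]
    [AddCommGroup V'] [Module ℂ V'] [Module A V'] [IsScalarTower ℂ A V'] (g : V →ₗ[ℂ] V')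
    (hg : ∀ (r : A) x, g (r • x) = r • g x) (y : B) (z : K.V ⊗[A] V) :
    lt K.V g hg (y • z) = y • lt K.V g hg z := by
  induction z using TensorProduct.induction_on with
  | zero => simp only [smul_zero, map_zero]
  | tmul k x => rw [smul_tmul', lt_tmul, lt_tmul, smul_tmul']
  | add z z' h h' => simp only [smul_add, map_add, h, h']

/-- The tensor product with a bimodule. -/
abbrev ten (K : BM A B) (M : RG A) : RG B where
  toGD := tenG K.V M
  md := TensorProduct.leftModule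
  tw := inferInstanceAs (IsScalarTower ℂ B (K.V ⊗[A] M.V))
  d_smul y z := lt_smul K M.d M.d_smul y z
  gr_smul m y z hz := tgr_ind (P := fun z => y • z ∈ tgr K.V M m) hz
    (by rw [smul_zero]; exact zero_mem _)
    (fun k x hx => by rw [smul_tmul']; exact tgr_tmul _ hx)
    (fun z z' h h' => by rw [smul_add]; exact add_mem h h')

/-- The kernel of a localisation, after tensoring. -/
theorem loc_ker (K : BM A B) (K' : BM A B') (τ : B →ₐ[ℂ] B') (r : K.V →ₗ[ℂ] K'.V)
    (hl : ∀ (x : A) k, r (x • k) = x • r k) (hr : ∀ (y : B) k, r (y • k) = τ y • r k) (s : B)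
    (hu : IsUnit (τ s)) (hk : Function.Injective r)
    (hs : ∀ k', ∃ (m : ℕ) (k : K.V), τ s ^ m • k' = r k)
    {V : Type} [AddCommGroup V] [Module ℂ V] [Module A V] [IsScalarTower ℂ A V]
    (z : K.V ⊗[A] V)
    (hz : tmap (A := A) (B := A) id r (LinearMap.id : V →ₗ[ℂ] V) hl (fun _ _ => rfl) z = 0) :
    ∃ m : ℕ, s ^ m • z = 0 := by
  let _ : Module B K'.V := Module.compHom _ τ.toRingHom
  have sm : ∀ (y : B) (k : K'.V), y • k = τ y • k := fun _ _ => rfl
  let r' : K.V →ₗ[B] K'.V := ⟨⟨r, map_add r⟩, hr⟩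
  have hL : IsLocalizedModule (Submonoid.powers s) r' := by
    refine ⟨?_, ?_, ?_⟩
    · rintro ⟨_, m, rfl⟩
      obtain ⟨v, hv⟩ := (hu.pow m).exists_left_inv
      rw [Module.End.isUnit_iff]
      constructor
      · intro k k' h
        have h1 : τ (s ^ m) • k = τ (s ^ m) • k' := h
        have h2 := congrArg (v • ·) h1
        simpa only [smul_smul, map_pow, hv, one_smul] using h2
      · intro k
        refine ⟨v • k, ?_⟩
        change τ (s ^ m) • v • k = k
        rw [smul_smul, map_pow, mul_comm, hv, one_smul]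
    · intro k'
      obtain ⟨m, k, e⟩ := hs k'
      refine ⟨(k, ⟨s ^ m, m, rfl⟩), ?_⟩
      change τ (s ^ m) • k' = r k
      rw [map_pow, e]
    · intro k k' h
      exact ⟨1, by rw [hk h]⟩
  let S := Submonoid.powers s
  let mk := LocalizedModule.mkLinearMap S (K.V ⊗[A] V)
  let j : V → (K.V →ₗ[B] K.V ⊗[A] V) := fun v =>
    ⟨⟨fun k => k ⊗ₜ v, fun k k' => add_tmul k k' v⟩, fun y k => (smul_tmul' y k v).symm⟩
  have un := IsLocalizedModule.map_units (S := S) mk
  let ψ : V → (K'.V →ₗ[B] LocalizedModule S (K.V ⊗[A] V)) := fun v =>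
    IsLocalizedModule.lift S r' (mk.comp (j v)) un
  have hψ : ∀ v k, ψ v (r k) = mk (k ⊗ₜ v) := fun v k =>
    IsLocalizedModule.lift_apply S r' (mk.comp (j v)) un k
  have ψadd : ∀ v v', ψ (v + v') = ψ v + ψ v' := fun v v' =>
    IsLocalizedModule.ext S r' un (LinearMap.ext fun k => by
      change ψ (v + v') (r k) = ψ v (r k) + ψ v' (r k)
      rw [hψ, hψ, hψ, tmul_add, map_add])
  have ψbal : ∀ (x : A) v k', ψ v (x • k') = ψ (x • v) k' := by
    intro x v
    let mx : K'.V →ₗ[B] K'.V := ⟨⟨fun k => x • k, smul_add x⟩, fun y k => by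
      change x • τ y • k = τ y • x • k
      exact smul_comm _ _ _⟩
    have h : (ψ v).comp mx = ψ (x • v) :=
      IsLocalizedModule.ext S r' un (LinearMap.ext fun k => by
        change ψ v (x • r k) = ψ (x • v) (r k)
        rw [← hl, hψ, hψ, smul_tmul])
    exact fun k' => congrArg (fun F => F k') h
  let Ψ : K'.V ⊗[A] V →+ LocalizedModule S (K.V ⊗[A] V) := TensorProduct.liftAddHom
    (AddMonoidHom.mk' (fun k' => AddMonoidHom.mk' (fun v => ψ v k') (fun v v' => by
      rw [ψadd]; rfl)) (fun k k' => by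
        ext v
        exact map_add (ψ v) k k')) (fun x k' v => ψbal x v k')
  have hΨ : ∀ z : K.V ⊗[A] V,
      Ψ (tmap (A := A) (B := A) id r (LinearMap.id : V →ₗ[ℂ] V) hl (fun _ _ => rfl) z) =
        mk z := by
    intro z
    induction z using TensorProduct.induction_on with
    | zero => simp only [map_zero]
    | tmul k v =>
      rw [tmap_tmul]
      exact (TensorProduct.liftAddHom_tmul _ _ _ _).trans (hψ v k)
    | add z z' h h' => simp only [map_add, h, h']
  have h0 : mk z = 0 := by rw [← hΨ, hz, map_zero]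
  obtain ⟨⟨_, m, rfl⟩, h⟩ := (IsLocalizedModule.eq_zero_iff S mk).1 h0
  exact ⟨m, h⟩

end

end Vale.Agent.P286ET
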